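import Vale.Agent.P128.Regularity.Tip.Cap
import Vale.Agent.P128.Regularity.Spec

/-!
# P128 R11: almost every small circle, monotonicity, one thin annulus
-/

open MeasureTheory Set Metric Filter
open scoped ENNReal NNReal Topology Real RealInnerProductSpace

noncomputable section

namespace Vale.Agent.P128.Regularity.Tip

open Vale.Agent.P128.Bridge

/-- The energy of the circle of radius `ρ`. -/
def circEn (U K : Set ℂ) (G : ℂ → ℂ) (x : ℂ) (ρ : ℝ) : ℝ :=
  circInt (fun z => ‖ext U K G z‖ ^ 2) x ρ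

/-- The energy ratio. -/
def yr (U K : Set ℂ) (G : ℂ → ℂ) (x : ℂ) (ρ : ℝ) : ℝ := den U K G x ρ / ρ

/-- The angle of the crossing. -/
def ang (x : ℂ) (γ : Fin 1 → ℝ → ℂ) (r : ℝ) : ℝ := (γ 0 r - x).arg

theorem abs_stress_le (G : ℂ → ℂ) (x e z : ℂ) : |stress G x e z| ≤ ‖e‖ * ‖G z‖ ^ 2 := by
  set n := nrm x z with hn
  set g := G z
  have hs : stress G x e z = ⟪e, (2 * ⟪n, g⟫) • g - ‖g‖ ^ 2 • n⟫ := by
    rw [stress, ← nrm, inner_sub_right, real_inner_smul_right, real_inner_smul_right,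
      real_inner_comm n e]
  rw [hs]
  refine (abs_real_inner_le_norm _ _).trans (mul_le_mul_of_nonneg_left ?_ (norm_nonneg e))
  rw [← pow_le_pow_iff_left₀ (norm_nonneg _) (sq_nonneg _) two_ne_zero, norm_sub_sq_real,
    norm_smul, norm_smul, real_inner_smul_left, real_inner_smul_right, real_inner_comm g n,
    mul_pow, mul_pow, Real.norm_eq_abs, sq_abs, Real.norm_of_nonneg (sq_nonneg ‖g‖)]
  have hn1 : ‖n‖ ^ 2 ≤ 1 := pow_le_one₀ (norm_nonneg _) (norm_nrm_le x z)
  nlinarith [mul_le_mul_of_nonneg_left hn1 (sq_nonneg (‖g‖ ^ 2))]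

theorem stress_sub (G : ℂ → ℂ) (x e e' z : ℂ) :
    stress G x e z - stress G x e' z = stress G x (e - e') z := by
  simp only [stress, inner_sub_left, inner_sub_right]
  ring

section

variable {U K : Set ℂ} {u : ℂ → ℝ} {G : ℂ → ℂ} {A M Λ : ℝ} {x : ℂ} {R : ℝ}
  {γ γ' : Fin 1 → ℝ → ℂ} (h : IsAlmostMin U K u G A M Λ) (hb : Branches K 1 x R γ γ')
  (hsub : closedBall x R ⊆ U)
include h hb hsub

theorem crossing {r : ℝ} (hr : r ∈ Ioo 0 R) :
    K ∩ sphere x r = {circleMap x r (ang x γ r)} ∧ circleMap x r (ang x γ r) = γ 0 r := by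
  have hrad := hb.radial 0 r hr
  have he : circleMap x r (ang x γ r) = γ 0 r := by
    have h1 := Complex.norm_mul_exp_arg_mul_I (γ 0 r - x)
    rw [hrad] at h1
    rw [circleMap, ang, h1, add_sub_cancel]
  refine ⟨?_, he⟩
  rw [he]
  ext z
  simp only [mem_inter_iff, mem_sphere, mem_singleton_iff]
  constructor
  · rintro ⟨hK, hd⟩
    have hz : z ∈ insert x (⋃ i, γ i '' Ioo (0 : ℝ) R) := hb.cover ▸ ⟨hK, mem_ball.2 (hd ▸ hr.2)⟩
    rcases hz with rfl | hz
    · rw [dist_self] at hd; linarith [hr.1]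
    · obtain ⟨i, t, ht, rfl⟩ := mem_iUnion.1 hz
      obtain rfl : i = 0 := Subsingleton.elim i 0
      rw [dist_eq_norm, hb.radial 0 t ht] at hd
      rw [hd]
  · rintro rfl
    have hmem : γ 0 r ∈ K ∩ ball x R :=
      hb.cover.symm ▸ Or.inr (mem_iUnion.2 ⟨0, mem_image_of_mem _ hr⟩)
    exact ⟨hmem.1, by rw [dist_eq_norm, hrad]⟩

theorem free_circle {r : ℝ} (hr : r ∈ Ioo 0 R) :
    ∀ t ∈ Ioo 0 (2 * π), circleMap x r (ang x γ r + t) ∈ U \ K :=
  free_of_cross hr.1 ((closedBall_subset_closedBall hr.2.le).trans hsub) (crossing h hb hsub hr).1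

theorem exists_base : ∃ c₀ : ℝ, ∀ z ∈ U \ K, |u z - c₀| ≤ M := by
  have hR := hb.pos
  exact ⟨_, fun z hz => h.osc z hz _ (free_circle h hb hsub (r := R / 2)
    ⟨by positivity, by linarith⟩ π ⟨Real.pi_pos, by linarith [Real.pi_pos]⟩)⟩

theorem circEn_data : IntervalIntegrable (circEn U K G x) volume 0 R ∧
    ∀ r ∈ Icc 0 R, den U K G x r = ∫ ρ in (0)..r, circEn U K G x ρ :=
  polar_ball ((measurable_ext h).norm.pow_const 2) (integrableOn_ext_sq h hsub) hb.pos.le

/-- **Almost every circle.** -/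
theorem good_radii : ∀ᵐ r : ℝ, r ∈ Ioo 0 R →
    IntervalIntegrable (fun θ => ‖ext U K G (circleMap x r θ)‖ ^ 2) volume (-π) π ∧
      yr U K G x r - 8 * Λ * r ≤ circEn U K G x r ∧
      2 * yr U K G x r ≤ circInt (stress (ext U K G) x (dirv (ang x γ r))) x r +
        circEn U K G x r + 16 * Λ * r ∧
      ∀ l : ℝ, 0 < l → tau U K G x r (ang x γ r) ≤ yr U K G x r + 8 * Λ * r +
        (1 + 1 / l) * (circEn U K G x r - yr U K G x r + 8 * Λ * r) +
        l * (20 * circEn U K G x r) := by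
  obtain ⟨c₀, hc₀⟩ := exists_base h hb hsub
  filter_upwards [flux_ae h hsub hc₀,
    circle_integrable_ae (F := fun z => ‖ext U K G z‖ ^ 2) ((measurable_ext h).norm.pow_const 2)
      (integrableOn_ext_sq h hsub)] with r hflux hint hr
  obtain ⟨h1, h0⟩ := hflux hr
  have hi := hint hr
  have hfree := free_circle h hb hsub hr
  have hM := hc₀ _ (hfree π ⟨Real.pi_pos, by linarith [Real.pi_pos]⟩)
  have hy : r * yr U K G x r = den U K G x r := by
    rw [yr, mul_div_cancel₀ _ hr.1.ne']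
  rw [← hy] at h1
  obtain ⟨a1, a2, -⟩ := circle_facts h hr.1 hfree hi one_pos hM h1 h0
  exact ⟨hi, a1, a2, fun l hl => (circle_facts h hr.1 hfree hi hl hM h1 h0).2.2⟩

theorem continuousOn_den : ContinuousOn (den U K G x) (Icc 0 R) := by
  obtain ⟨hi, hd⟩ := circEn_data h hb hsub
  have hc := intervalIntegral.continuousOn_primitive_interval' hi (a := 0) left_mem_uIcc
  rw [uIcc_of_le hb.pos.le] at hc
  exact hc.congr hd

/-- **Almost monotonicity of the energy ratio.** -/
theorem yr_mono {a b : ℝ} (ha : 0 < a) (hab : a ≤ b) (hbR : b ≤ R) :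
    yr U K G x a ≤ yr U K G x b + 8 * Λ * (b - a) := by
  obtain ⟨hi, hd⟩ := circEn_data h hb hsub
  set f : ℝ → ℝ := fun ρ => ∫ s in (0)..ρ, circEn U K G x s with hf
  set g : ℝ → ℝ := fun ρ => ρ⁻¹ with hg
  have hsubI : uIcc a b ⊆ uIcc 0 R := by
    rw [uIcc_of_le hab, uIcc_of_le hb.pos.le]; exact Icc_subset_Icc ha.le hbR
  have hfac : AbsolutelyContinuousOnInterval f a b :=
    (hi.absolutelyContinuousOnInterval_intervalIntegral left_mem_uIcc).mono hsubI
  have hgac : AbsolutelyContinuousOnInterval g a b := by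
    refine ContDiffOn.absolutelyContinuousOnInterval ?_
    rw [uIcc_of_le hab]
    exact contDiffOn_id.inv fun ρ hρ => (ha.trans_le hρ.1).ne'
  have key := hfac.integral_deriv_mul_eq_sub hgac
  have hint : IntervalIntegrable (fun ρ => deriv f ρ * g ρ + f ρ * deriv g ρ) volume a b :=
    (hfac.intervalIntegrable_deriv.mul_continuousOn hgac.continuousOn).add
      (hgac.intervalIntegrable_deriv.continuousOn_mul hfac.continuousOn)
  have hlow : ∫ _ in a..b, (-(8 * Λ)) ≤ ∫ ρ in a..b, deriv f ρ * g ρ + f ρ * deriv g ρ := by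
    refine intervalIntegral.integral_mono_ae_restrict hab intervalIntegrable_const hint ?_
    have hne : ∀ᵐ ρ : ℝ, ρ ≠ R := by simp [ae_iff, measure_singleton]
    filter_upwards [ae_restrict_mem measurableSet_Icc, ae_restrict_of_ae (good_radii h hb hsub),
      ae_restrict_of_ae hi.ae_hasDerivAt_integral, ae_restrict_of_ae hne] with ρ hρ hgood hder hρR
    have hρ0 : 0 < ρ := ha.trans_le hρ.1
    obtain ⟨-, h1, -, -⟩ := hgood ⟨hρ0, lt_of_le_of_ne (hρ.2.trans hbR) hρR⟩
    have hρI : ρ ∈ Icc 0 R := ⟨hρ0.le, hρ.2.trans hbR⟩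
    have e1 : deriv f ρ = circEn U K G x ρ :=
      (hder (by rwa [uIcc_of_le hb.pos.le]) 0 left_mem_uIcc).deriv
    have e2 : deriv g ρ = -(ρ ^ 2)⁻¹ := (hasDerivAt_inv hρ0.ne').deriv
    rw [e1, e2]
    simp only [hf, hg]
    rw [← hd ρ hρI]
    rw [yr] at h1
    have : circEn U K G x ρ * ρ⁻¹ + den U K G x ρ * -(ρ ^ 2)⁻¹ =
        (circEn U K G x ρ - den U K G x ρ / ρ + 8 * Λ * ρ) / ρ - 8 * Λ := by field_simp; ring
    rw [this]
    have : 0 ≤ (circEn U K G x ρ - den U K G x ρ / ρ + 8 * Λ * ρ) / ρ :=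
      div_nonneg (by linarith) hρ0.le
    linarith
  rw [key, intervalIntegral.integral_const, smul_eq_mul] at hlow
  simp only [hf, hg] at hlow
  rw [← hd a ⟨ha.le, hab.trans hbR⟩, ← hd b ⟨ha.le.trans hab, hbR⟩, ← div_eq_mul_inv,
    ← div_eq_mul_inv] at hlow
  simp only [yr]
  nlinarith

theorem ang_turn {a ρ : ℝ} (ha : 0 < a) (haρ : a ≤ ρ) (hρR : ρ < R) :
    ‖dirv (ang x γ ρ) - dirv (ang x γ a)‖ ≤ 3 * ((ρ - a) / a) := by
  have hρ0 : 0 < ρ := ha.trans_le haρ
  have e1 := (crossing h hb hsub (r := ρ) ⟨hρ0, hρR⟩).2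
  have e2 := (crossing h hb hsub (r := a) ⟨ha, haρ.trans_lt hρR⟩).2
  rw [circleMap_dirv] at e1 e2
  have hγ : ‖γ 0 ρ - γ 0 a‖ ≤ 2 * (ρ - a) := by
    refine norm_image_sub_le_of_norm_deriv_le_segment' (f' := γ' 0) (fun t ht => ?_) (fun t ht => ?_)
      ρ (right_mem_Icc.2 haρ)
    · exact (hb.deriv 0 t ⟨ha.trans_le ht.1, ht.2.trans_lt hρR⟩).1.hasDerivWithinAt
    · exact (hb.deriv 0 t ⟨ha.trans_le ht.1, ht.2.trans hρR⟩).2
  have hsplit : ρ • (dirv (ang x γ ρ) - dirv (ang x γ a)) =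
      (γ 0 ρ - γ 0 a) - (ρ - a) • dirv (ang x γ a) := by
    rw [← e1, ← e2, smul_sub, sub_smul]; abel
  have h1 : ρ * ‖dirv (ang x γ ρ) - dirv (ang x γ a)‖ ≤ 3 * (ρ - a) := by
    have hnn : ‖ρ • (dirv (ang x γ ρ) - dirv (ang x γ a))‖ =
        ρ * ‖dirv (ang x γ ρ) - dirv (ang x γ a)‖ := by rw [norm_smul, Real.norm_of_nonneg hρ0.le]
    rw [← hnn, hsplit]
    refine (norm_sub_le _ _).trans ?_
    rw [norm_smul, norm_dirv, mul_one, Real.norm_of_nonneg (sub_nonneg.2 haρ)]
    linarith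
  rw [← mul_div_assoc, le_div_iff₀ ha]
  nlinarith [mul_le_mul_of_nonneg_right haρ (norm_nonneg (dirv (ang x γ ρ) - dirv (ang x γ a)))]

/-- **One thin annulus.** -/
theorem tile {Ct δ : ℝ}
    (hT : ∀ a t : ℝ, 0 < a → 0 < t → t ≤ 1 / 2 → a * (1 + t) < R → Λ * a ≤ δ →
      ∀ e : ℂ, ‖e‖ = 1 → ∫ z in (closedBall x (a * (1 + t)) \ closedBall x a) \ K, stress G x e z ≤
        a * (t + Ct * Real.sqrt (Λ * a)))
    {a t b : ℝ} (ha : 0 < a) (ht : 0 < t) (ht2 : t ≤ 1 / 2) (hab : b = a * (1 + t)) (hbR : b < R)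
    (hΛa : Λ * a ≤ δ) :
    2 * ∫ ρ in a..b, yr U K G x ρ ≤
      a * (t + Ct * Real.sqrt (Λ * a)) + (1 + 3 * t) * (den U K G x b - den U K G x a) +
        16 * Λ * b * (b - a) := by
  obtain ⟨hi, hd⟩ := circEn_data h hb hsub
  have hΛ : 0 ≤ Λ := (mul_nonneg h.A_nonneg h.M_nonneg).trans h.AM_le
  have hle : a ≤ b := by rw [hab]; nlinarith
  set e := dirv (ang x γ a) with he
  set S : ℂ → ℝ := stress (ext U K G) x e with hS
  have hm := measurable_ext h
  have hSm : Measurable S := by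
    have h1 : Measurable fun z => ⟪e, ext U K G z⟫ := measurable_const.inner hm
    have h2 : Measurable fun z => ⟪nrm x z, ext U K G z⟫ := (measurable_nrm x).inner hm
    exact ((h2.const_mul 2).mul h1).sub ((hm.norm.pow_const 2).mul
      ((measurable_nrm x).inner measurable_const))
  have hSi : IntegrableOn S (ball x R) := (integrableOn_ext_sq h hsub).mono' hSm.aestronglyMeasurable
    (Eventually.of_forall fun z => by
      rw [Real.norm_eq_abs]
      exact (abs_stress_le _ x e z).trans_eq (by rw [he, norm_dirv, one_mul]))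
  obtain ⟨hiS, -⟩ := polar_ball hSm hSi hb.pos.le
  have hsubI : uIcc a b ⊆ uIcc 0 R := by
    rw [uIcc_of_le hle, uIcc_of_le hb.pos.le]; exact Icc_subset_Icc ha.le hbR.le
  have hyc : ContinuousOn (yr U K G x) (Icc a b) :=
    ((continuousOn_den h hb hsub).mono (Icc_subset_Icc ha.le hbR.le)).div continuousOn_id
      fun ρ hρ => (ha.trans_le hρ.1).ne'
  have iy : IntervalIntegrable (yr U K G x) volume a b := by
    refine ContinuousOn.intervalIntegrable ?_; rwa [uIcc_of_le hle]
  have iE := hi.mono_set hsubI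
  have iS := hiS.mono_set hsubI
  have key : ∀ᵐ ρ ∂volume.restrict (Icc a b), 2 * yr U K G x ρ ≤
      circInt S x ρ + (1 + 3 * t) * circEn U K G x ρ + 16 * Λ * b := by
    filter_upwards [ae_restrict_mem measurableSet_Icc, ae_restrict_of_ae (good_radii h hb hsub)]
      with ρ hρ hgood
    have hρ0 : 0 < ρ := ha.trans_le hρ.1
    obtain ⟨hint, -, h2, -⟩ := hgood ⟨hρ0, hρ.2.trans_lt hbR⟩
    have hrot : circInt (stress (ext U K G) x (dirv (ang x γ ρ))) x ρ ≤
        circInt S x ρ + 3 * t * circEn U K G x ρ := by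
      have hn : ‖dirv (ang x γ ρ) - e‖ ≤ 3 * t := by
        refine (ang_turn h hb hsub ha hρ.1 (hρ.2.trans_lt hbR)).trans ?_
        gcongr
        rw [div_le_iff₀ ha]; linarith [hρ.2, hab]
      have hc : ∀ v : ℂ, IntervalIntegrable (fun θ => stress (ext U K G) x v (circleMap x ρ θ))
          volume (-π) π := fun v => by
        refine (hint.const_mul ‖v‖).mono_fun (Measurable.aestronglyMeasurable ?_)
          (Eventually.of_forall fun θ => ?_)
        · have hg : Measurable fun θ => ext U K G (circleMap x ρ θ) :=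
            hm.comp (continuous_circleMap x ρ).measurable
          have hn' : Measurable fun θ => nrm x (circleMap x ρ θ) :=
            (measurable_nrm x).comp (continuous_circleMap x ρ).measurable
          exact (((hn'.inner hg).const_mul 2).mul (measurable_const.inner hg)).sub
            ((hg.norm.pow_const 2).mul (hn'.inner measurable_const))
        · simp only [Real.norm_eq_abs]
          rw [abs_of_nonneg (show 0 ≤ ‖v‖ * ‖ext U K G (circleMap x ρ θ)‖ ^ 2 by positivity)]
          exact abs_stress_le _ x v _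
      simp only [hS, circEn, circInt]
      rw [show ρ * (∫ θ in (-π)..π, stress (ext U K G) x e (circleMap x ρ θ)) +
          3 * t * (ρ * ∫ θ in (-π)..π, ‖ext U K G (circleMap x ρ θ)‖ ^ 2) =
        ρ * ((∫ θ in (-π)..π, stress (ext U K G) x e (circleMap x ρ θ)) +
          ∫ θ in (-π)..π, 3 * t * ‖ext U K G (circleMap x ρ θ)‖ ^ 2) by
        rw [intervalIntegral.integral_const_mul]; ring,
        ← intervalIntegral.integral_add (hc e) (hint.const_mul _)]
      refine mul_le_mul_of_nonneg_left (intervalIntegral.integral_mono_on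
        (by linarith [Real.pi_pos]) (hc _) ((hc e).add (hint.const_mul _)) fun θ _ => ?_) hρ0.le
      rw [← sub_le_iff_le_add', stress_sub]
      exact ((le_abs_self _).trans (abs_stress_le _ x _ _)).trans
        (mul_le_mul_of_nonneg_right hn (sq_nonneg _))
    nlinarith [mul_le_mul_of_nonneg_left hρ.2 hΛ]
  have hmain := intervalIntegral.integral_mono_ae_restrict hle (iy.const_mul 2)
    ((iS.add (iE.const_mul (1 + 3 * t))).add intervalIntegrable_const) key
  rw [intervalIntegral.integral_const_mul, intervalIntegral.integral_add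
      (iS.add (iE.const_mul (1 + 3 * t))) intervalIntegrable_const,
    intervalIntegral.integral_add iS (iE.const_mul (1 + 3 * t)),
    intervalIntegral.integral_const_mul, intervalIntegral.integral_const, smul_eq_mul] at hmain
  have hE : ∫ ρ in a..b, circEn U K G x ρ = den U K G x b - den U K G x a := by
    rw [hd a ⟨ha.le, hle.trans hbR.le⟩, hd b ⟨ha.le.trans hle, hbR.le⟩,
      intervalIntegral.integral_interval_sub_left (hi.mono_set (by
        rw [uIcc_of_le (ha.le.trans hle), uIcc_of_le hb.pos.le]; exact Icc_subset_Icc le_rfl hbR.le))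
      (hi.mono_set (by
        rw [uIcc_of_le ha.le, uIcc_of_le hb.pos.le]
        exact Icc_subset_Icc le_rfl (hle.trans hbR.le)))]
  have hSint : ∫ ρ in a..b, circInt S x ρ ≤ a * (t + Ct * Real.sqrt (Λ * a)) := by
    refine le_trans (le_of_eq ?_) (hT a t ha ht ht2 (hab ▸ hbR) hΛa e (norm_dirv _))
    rw [← polar_annulus hSm hSi ha.le hle hbR.le, ← hab]
    have hUKm : MeasurableSet (U \ K) := h.isOpen_compl.measurableSet
    have e1 : S = (U \ K).indicator (stress G x e) := by
      funext z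
      by_cases hz : z ∈ U \ K
      · rw [indicator_of_mem hz, hS, stress, stress, ext, indicator_of_mem hz]
      · rw [indicator_of_notMem hz, hS, stress, ext, indicator_of_notMem hz]; simp
    rw [e1, setIntegral_indicator hUKm]
    refine setIntegral_congr_set ?_
    have hbU : closedBall x b ⊆ U := (closedBall_subset_closedBall hbR.le).trans hsub
    filter_upwards [measure_eq_zero_iff_ae_notMem.1 (Measure.addHaar_sphere volume x a),
      measure_eq_zero_iff_ae_notMem.1 (Measure.addHaar_sphere volume x b)] with z hza hzb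
    simp only [mem_sphere] at hza hzb
    refine propext ⟨fun hz => ⟨⟨mem_closedBall.2 (mem_ball.1 hz.1.1).le, fun hh =>
      hz.1.2 (mem_ball.2 (lt_of_le_of_ne hh hza))⟩, hz.2.2⟩, fun hz => ⟨⟨mem_ball.2
        (lt_of_le_of_ne hz.1.1 hzb), fun hh => hz.1.2 (ball_subset_closedBall hh)⟩,
          hbU hz.1.1, hz.2⟩⟩
  rw [hE] at hmain
  linarith

end

end Vale.Agent.P128.Regularity.Tip
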