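import Vale.Agent.P128.Bridge.Polar

/-!
# P128 R11: circle integrals of integrable functions
-/

open MeasureTheory Set Metric Filter
open scoped ENNReal Topology Real

noncomputable section

namespace Vale.Agent.P128.Regularity.Tip

open Vale.Agent.P128.Bridge

/-- `∫` over the circle of radius `ρ` for arc length. -/
def circInt (F : ℂ → ℝ) (x : ℂ) (ρ : ℝ) : ℝ := ρ * ∫ θ in (-π)..π, F (circleMap x ρ θ)

variable {F : ℂ → ℝ}

theorem polar_prod (hF : Integrable F) (hm : Measurable F) (x : ℂ) :
    IntegrableOn (fun p : ℝ × ℝ => p.1 * F (circleMap x p.1 p.2)) (Ioi (0 : ℝ) ×ˢ Ioo (-π) π)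
      (volume.prod volume) := by
  set Fh : ℝ × ℝ → ℝ := fun p => p.1 * F (circleMap x p.1 p.2) with hFh
  have hmh : Measurable Fh :=
    measurable_fst.mul (hm.comp (continuous_circleMap_uncurry x).measurable)
  refine ⟨hmh.aestronglyMeasurable, ?_⟩
  rw [hasFiniteIntegral_iff_enorm]
  have h1 : ∫⁻ p in Ioi (0 : ℝ) ×ˢ Ioo (-π) π, ‖Fh p‖ₑ ∂(volume.prod volume) = ∫⁻ z, ‖F z‖ₑ := by
    rw [← lintegral_add_left_eq_self (fun z => ‖F z‖ₑ) x,
      ← Complex.lintegral_comp_polarCoord_symm, polarCoord_target, Measure.volume_eq_prod]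
    refine setLIntegral_congr_fun (measurableSet_Ioi.prod measurableSet_Ioo) fun p hp => ?_
    simp only [hFh, smul_eq_mul]
    rw [enorm_mul, Real.enorm_of_nonneg (le_of_lt (Set.mem_Ioi.1 hp.1)), circleMap_eq_add_polarCoord]
  rw [h1]
  exact hF.2

theorem polar_real (hF : Integrable F) (hm : Measurable F) (x : ℂ) :
    IntegrableOn (circInt F x) (Ioi 0) ∧ ∫ z, F z = ∫ ρ in Ioi (0 : ℝ), circInt F x ρ := by
  set Fh : ℝ × ℝ → ℝ := fun p => p.1 * F (circleMap x p.1 p.2) with hFh
  have hint : IntegrableOn Fh (Ioi (0 : ℝ) ×ˢ Ioo (-π) π) (volume.prod volume) := polar_prod hF hm x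
  have hπ : -π ≤ π := by linarith [Real.pi_pos]
  have hcirc : circInt F x = fun ρ => ∫ θ in Ioo (-π) π, Fh (ρ, θ) := by
    funext ρ
    rw [circInt, intervalIntegral.integral_of_le hπ, integral_Ioc_eq_integral_Ioo,
      integral_const_mul]
  have hint' : Integrable Fh ((volume.restrict (Ioi (0 : ℝ))).prod (volume.restrict (Ioo (-π) π))) := by
    rw [Measure.prod_restrict]; exact hint
  refine ⟨hcirc ▸ hint'.integral_prod_left, ?_⟩
  rw [hcirc, ← setIntegral_prod _ hint, ← integral_add_left_eq_self F x,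
    ← Complex.integral_comp_polarCoord_symm, polarCoord_target, Measure.volume_eq_prod]
  refine setIntegral_congr_fun (measurableSet_Ioi.prod measurableSet_Ioo) fun p _ => ?_
  simp only [hFh, smul_eq_mul, circleMap_eq_add_polarCoord]

/-- Almost every circle in the disc carries an integrable restriction. -/
theorem circle_integrable_ae {x : ℂ} {R : ℝ} (hm : Measurable F) (hF : IntegrableOn F (ball x R)) :
    ∀ᵐ r : ℝ, r ∈ Ioo 0 R → IntervalIntegrable (fun θ => F (circleMap x r θ)) volume (-π) π := by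
  have hi : Integrable ((ball x R).indicator F) := (integrable_indicator_iff measurableSet_ball).2 hF
  have h := polar_prod hi (hm.indicator measurableSet_ball) x
  rw [IntegrableOn, ← Measure.prod_restrict] at h
  filter_upwards [(ae_restrict_iff' measurableSet_Ioi).1 h.prod_right_ae] with r hr hrR
  rw [intervalIntegrable_iff_integrableOn_Ioo_of_le (by linarith [Real.pi_pos])]
  refine ((hr hrR.1).const_mul r⁻¹).congr (Eventually.of_forall fun θ => ?_)
  have hmem : circleMap x r θ ∈ ball x R := by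
    rw [mem_ball, dist_eq_norm, circleMap_sub_center, norm_circleMap_zero, abs_of_pos hrR.1]
    exact hrR.2
  simp only [indicator_of_mem hmem]
  rw [← mul_assoc, inv_mul_cancel₀ hrR.1.ne', one_mul]

/-- On a disc: the circle integrals are integrable and add up to the integral. -/
theorem polar_ball {x : ℂ} {R : ℝ} (hm : Measurable F) (hF : IntegrableOn F (ball x R))
    (hR : 0 ≤ R) :
    IntervalIntegrable (circInt F x) volume 0 R ∧
      ∀ r ∈ Icc 0 R, ∫ z in ball x r, F z = ∫ ρ in (0)..r, circInt F x ρ := by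
  have key : ∀ r ∈ Icc 0 R, IntegrableOn (circInt F x) (Ioo 0 r) ∧
      ∫ z in ball x r, F z = ∫ ρ in Ioo 0 r, circInt F x ρ := by
    intro r hr
    set F' := (ball x r).indicator F with hF'
    have hi : Integrable F' :=
      (integrable_indicator_iff measurableSet_ball).2 (hF.mono_set (ball_subset_ball hr.2))
    obtain ⟨h1, h2⟩ := polar_real hi (hm.indicator measurableSet_ball) x
    have heq : ∀ ρ ∈ Ioi (0 : ℝ), circInt F' x ρ = (Ioo 0 r).indicator (circInt F x) ρ := by
      intro ρ hρ
      have hd : ∀ θ, dist (circleMap x ρ θ) x = ρ := fun θ => by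
        rw [dist_eq_norm, circleMap_sub_center, norm_circleMap_zero, abs_of_pos hρ]
      by_cases hρr : ρ < r
      · rw [indicator_of_mem (show ρ ∈ Ioo 0 r from ⟨hρ, hρr⟩), circInt, circInt]
        congr 2
        funext θ
        rw [hF', indicator_of_mem (by rw [mem_ball, hd]; exact hρr)]
      · rw [indicator_of_notMem (fun h => hρr h.2), circInt]
        simp [hF', indicator_of_notMem, mem_ball, hd, hρr]
    have h1' := (integrableOn_congr_fun heq measurableSet_Ioi).1 h1
    rw [IntegrableOn, integrable_indicator_iff measurableSet_Ioo, IntegrableOn,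
      Measure.restrict_restrict measurableSet_Ioo,
      inter_eq_left.2 (show Ioo 0 r ⊆ Ioi (0 : ℝ) from fun ρ hρ => hρ.1)] at h1'
    refine ⟨h1', ?_⟩
    rw [← integral_indicator measurableSet_ball, h2,
      setIntegral_congr_fun measurableSet_Ioi heq, setIntegral_indicator measurableSet_Ioo,
      inter_eq_right.2 (show Ioo 0 r ⊆ Ioi (0 : ℝ) from fun ρ hρ => hρ.1)]
  refine ⟨?_, fun r hr => ?_⟩
  · rw [intervalIntegrable_iff_integrableOn_Ioo_of_le hR]
    exact (key R (right_mem_Icc.2 hR)).1
  · rw [(key r hr).2, intervalIntegral.integral_of_le hr.1, integral_Ioc_eq_integral_Ioo]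

/-- On an annulus. -/
theorem polar_annulus {x : ℂ} {R : ℝ} (hm : Measurable F) (hF : IntegrableOn F (ball x R))
    {a b : ℝ} (ha : 0 ≤ a) (hab : a ≤ b) (hb : b ≤ R) :
    ∫ z in ball x b \ ball x a, F z = ∫ ρ in a..b, circInt F x ρ := by
  obtain ⟨hi, hr⟩ := polar_ball hm hF (ha.trans (hab.trans hb))
  have hi' : ∀ c d : ℝ, 0 ≤ c → c ≤ d → d ≤ R → IntervalIntegrable (circInt F x) volume c d :=
    fun c d hc hcd hd => hi.mono_set (by
      rw [uIcc_of_le hcd, uIcc_of_le (hc.trans (hcd.trans hd))]; exact Icc_subset_Icc hc hd)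
  have h1 := intervalIntegral.integral_add_adjacent_intervals (hi' 0 a le_rfl ha (hab.trans hb))
    (hi' a b ha hab hb)
  rw [setIntegral_sdiff measurableSet_ball (hF.mono_set (ball_subset_ball hb))
    (ball_subset_ball hab), hr b ⟨ha.trans hab, hb⟩, hr a ⟨ha, hab.trans hb⟩]
  linarith

end Vale.Agent.P128.Regularity.Tip
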