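import Vale.Agent.P128.Bridge.Sobolev
import Vale.Agent.P128.Regularity.Defs
import Vale.Agent.P128.Regularity.Tip.Polar

/-!
# P128 R11: the weak equation on almost every circle
-/

open MeasureTheory Set Metric Filter
open scoped ENNReal NNReal Topology Real RealInnerProductSpace

noncomputable section

namespace Vale.Agent.P128.Regularity.Tip

open Vale.Agent.P128.Bridge

/-- The gradient, extended by zero. -/
def ext (U K : Set ℂ) (G : ℂ → ℂ) : ℂ → ℂ := (U \ K).indicator G

/-- The outer unit normal of the circles about `x`. -/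
def nrm (x z : ℂ) : ℂ := ‖z - x‖⁻¹ • (z - x)

/-- Dirichlet energy of the extension in a disc. -/
def den (U K : Set ℂ) (G : ℂ → ℂ) (x : ℂ) (r : ℝ) : ℝ := ∫ z in ball x r, ‖ext U K G z‖ ^ 2

/-- The ramp from one to zero on `[a, b]`. -/
def down (a b ρ : ℝ) : ℝ := max 0 (min 1 ((b - ρ) / (b - a)))

theorem norm_nrm_le (x z : ℂ) : ‖nrm x z‖ ≤ 1 := by
  rw [nrm, norm_smul, norm_inv, norm_norm]
  exact inv_mul_le_one

theorem measurable_nrm (x : ℂ) : Measurable (nrm x) := by
  unfold nrm; fun_prop

theorem abs_inner_nrm_le (x z v : ℂ) : |⟪nrm x z, v⟫| ≤ ‖v‖ :=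
  (abs_real_inner_le_norm _ _).trans (mul_le_of_le_one_left (norm_nonneg _) (norm_nrm_le x z))

theorem hasFDerivAt_norm_sub {x z : ℂ} (hz : z ≠ x) :
    HasFDerivAt (fun y => ‖y - x‖) (innerSL ℝ (nrm x z)) z := by
  have h0 : ‖z - x‖ ≠ 0 := norm_ne_zero_iff.2 (sub_ne_zero.2 hz)
  have h1 := (((hasFDerivAt_id z).sub_const x).norm_sq).sqrt (pow_ne_zero 2 h0)
  refine (h1.congr_fderiv ?_).congr_of_eventuallyEq
    (Eventually.of_forall fun y => (Real.sqrt_sq (norm_nonneg _)).symm)
  refine ContinuousLinearMap.ext fun v => ?_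
  simp only [id, Real.sqrt_sq (norm_nonneg _), nrm, ContinuousLinearMap.comp_id,
    ContinuousLinearMap.smul_apply, innerSL_apply_apply, real_inner_smul_left, smul_eq_mul,
    nsmul_eq_mul]
  push_cast
  field_simp

theorem locLip_mul {s : Set ℂ} {f g : ℂ → ℝ} (hf : LocallyLipschitzOn s f)
    (hg : LocallyLipschitzOn s g) : LocallyLipschitzOn s (fun z => f z * g z) := by
  intro y hy
  obtain ⟨Kf, t, ht, hft⟩ := hf hy
  obtain ⟨Kg, t', ht', hgt⟩ := hg hy
  set W := t ∩ t' ∩ ball y 1 with hW
  have hWn : W ∈ 𝓝[s] y :=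
    inter_mem (inter_mem ht ht') (mem_nhdsWithin_of_mem_nhds (ball_mem_nhds y one_pos))
  have hyt : y ∈ t ∧ y ∈ t' := ⟨mem_of_mem_nhdsWithin hy ht, mem_of_mem_nhdsWithin hy ht'⟩
  refine ⟨((|f y| + Kf) * Kg + (|g y| + Kg) * Kf).toNNReal, W, hWn,
    LipschitzOnWith.of_dist_le' fun a ha b hb => ?_⟩
  have bd : ∀ (φ : ℂ → ℝ) (L : ℝ≥0) (S : Set ℂ), LipschitzOnWith L φ S → y ∈ S → ∀ c ∈ S,
      c ∈ ball y 1 → |φ c| ≤ |φ y| + L := by
    intro φ L S hL hyS c hc hcb
    have h1 := hL.dist_le_mul c hc y hyS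
    rw [Real.dist_eq] at h1
    have h2 : (L : ℝ) * dist c y ≤ L := mul_le_of_le_one_right L.2 (mem_ball.1 hcb).le
    linarith [abs_sub_abs_le_abs_sub (φ c) (φ y)]
  have h1 := hft.dist_le_mul a ha.1.1 b hb.1.1
  have h2 := hgt.dist_le_mul a ha.1.2 b hb.1.2
  rw [Real.dist_eq] at h1 h2 ⊢
  calc |f a * g a - f b * g b| = |f a * (g a - g b) + g b * (f a - f b)| := by ring_nf
    _ ≤ |f a| * |g a - g b| + |g b| * |f a - f b| := by
        refine (abs_add_le _ _).trans_eq ?_
        rw [abs_mul, abs_mul]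
    _ ≤ (|f y| + Kf) * (Kg * dist a b) + (|g y| + Kg) * (Kf * dist a b) :=
        add_le_add (mul_le_mul (bd f Kf t hft hyt.1 a ha.1.1 ha.2) h2 (abs_nonneg _)
            (by positivity))
          (mul_le_mul (bd g Kg t' hgt hyt.2 b hb.1.2 hb.2) h1 (abs_nonneg _) (by positivity))
    _ = _ := by ring

theorem locLip_of_grad {V : Set ℂ} {w : ℂ → ℝ} {Gw : ℂ → ℂ} (hV : IsOpen V)
    (hG : ContinuousOn Gw V) (hw : ∀ z ∈ V, HasFDerivAt w (innerSL ℝ (Gw z)) z) :
    LocallyLipschitzOn V w := by
  intro y hy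
  have hcd : ContDiffAt ℝ 1 w y := by
    refine ContDiffOn.contDiffAt ?_ (hV.mem_nhds hy)
    refine (contDiffOn_succ_iff_fderiv_of_isOpen (n := 0) hV).2
      ⟨fun z hz => (hw z hz).differentiableAt.differentiableWithinAt,
        fun hn => absurd hn (by simp), ?_⟩
    rw [contDiffOn_zero]
    exact ((innerSL ℝ).continuous.comp_continuousOn hG).congr fun z hz => (hw z hz).fderiv
  obtain ⟨L, T, hT, hL⟩ := hcd.exists_lipschitzOnWith
  exact ⟨L, T, mem_nhdsWithin_of_mem_nhds hT, hL⟩

theorem locLip_down (V : Set ℂ) (x : ℂ) {a b : ℝ} (hab : a < b) :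
    LocallyLipschitzOn V fun z => down a b ‖z - x‖ := by
  intro y _
  refine ⟨(b - a)⁻¹.toNNReal, univ, univ_mem, LipschitzOnWith.of_dist_le' fun p _ q _ => ?_⟩
  have hpos : 0 < b - a := sub_pos.2 hab
  rw [Real.dist_eq, down, down]
  refine (abs_max_sub_max_le_max _ _ _ _).trans (max_le (by simp; positivity) ?_)
  refine (abs_min_sub_min_le_max _ _ _ _).trans (max_le (by simp; positivity) ?_)
  rw [div_sub_div_same, abs_div, abs_of_pos hpos, ← div_eq_inv_mul]
  refine div_le_div_of_nonneg_right ?_ hpos.le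
  rw [sub_sub_sub_cancel_left, abs_sub_comm, dist_eq_norm]
  simpa using abs_norm_sub_norm_le (p - x) (q - x)

theorem down_mem (a b ρ : ℝ) : 0 ≤ down a b ρ ∧ down a b ρ ≤ 1 :=
  ⟨le_max_left _ _, max_le zero_le_one (min_le_left _ _)⟩

theorem down_one {a b ρ : ℝ} (hab : a < b) (h : ρ ≤ a) : down a b ρ = 1 := by
  rw [down, min_eq_left (by rw [le_div_iff₀ (sub_pos.2 hab)]; linarith), max_eq_right zero_le_one]

theorem down_zero {a b ρ : ℝ} (hab : a < b) (h : b ≤ ρ) : down a b ρ = 0 :=
  max_eq_left ((min_le_right _ _).trans (div_nonpos_of_nonpos_of_nonneg (by linarith) (by linarith)))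

section

variable {U K : Set ℂ} {u : ℂ → ℝ} {G : ℂ → ℂ} {A M Λ : ℝ} {x : ℂ} {R : ℝ}
  (h : IsAlmostMin U K u G A M Λ) (hsub : closedBall x R ⊆ U)

include h

theorem measurable_indicator_of_continuousOn {E : Type*} [TopologicalSpace E] [MeasurableSpace E]
    [BorelSpace E] [Zero E] {f : ℂ → E} (hf : ContinuousOn f (U \ K)) :
    Measurable ((U \ K).indicator f) := by
  classical
  rw [← piecewise_eq_indicator]
  exact hf.measurable_piecewise continuousOn_const h.isOpen_compl.measurableSet

theorem measurable_ext : Measurable (ext U K G) := measurable_indicator_of_continuousOn h h.contGrad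

include hsub

theorem dball_eq {r : ℝ} (hr : r ≤ R) :
    dball K G x r = ∫⁻ z in ball x r, ‖ext U K G z‖ₑ ^ 2 := by
  have hm : MeasurableSet (U \ K) := h.isOpen_compl.measurableSet
  have hsub' : closedBall x r ⊆ U := (closedBall_subset_closedBall hr).trans hsub
  have e1 : (fun z => ‖ext U K G z‖ₑ ^ 2) = (U \ K).indicator fun z => ‖G z‖ₑ ^ 2 := by
    funext z
    rw [ext]
    by_cases hz : z ∈ U \ K
    · rw [indicator_of_mem hz, indicator_of_mem hz]
    · rw [indicator_of_notMem hz, indicator_of_notMem hz]; simp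
  have h3 : (closedBall x r : Set ℂ) =ᵐ[volume] ball x r := by
    rw [← ball_union_sphere]
    exact union_ae_eq_left_of_ae_eq_empty (ae_eq_empty.2 (Measure.addHaar_sphere volume x r))
  rw [dball, ← setLIntegral_congr h3, e1, setLIntegral_indicator hm]
  congr 2
  refine Set.ext fun z => ?_
  exact ⟨fun hz => ⟨⟨hsub' hz.1, hz.2⟩, hz.1⟩, fun hz => ⟨hz.2, hz.1.2⟩⟩

theorem integrableOn_ext_sq : IntegrableOn (fun z => ‖ext U K G z‖ ^ 2) (ball x R) := by
  refine ⟨(measurable_ext h).norm.pow_const 2 |>.aestronglyMeasurable, ?_⟩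
  rw [hasFiniteIntegral_iff_enorm]
  simp only [enorm_pow, enorm_norm]
  rw [← dball_eq h hsub le_rfl]
  exact lt_of_le_of_lt le_self_add (h.finite _ (isCompact_closedBall x R) hsub)

theorem den_eq {r : ℝ} (hr : r ≤ R) :
    dball K G x r = ENNReal.ofReal (den U K G x r) := by
  rw [dball_eq h hsub hr, den, ofReal_integral_eq_lintegral_ofReal
    ((integrableOn_ext_sq h hsub).mono_set (ball_subset_ball hr))
    (Eventually.of_forall fun z => sq_nonneg _)]
  refine lintegral_congr fun z => ?_
  rw [← ofReal_norm, ENNReal.ofReal_pow (norm_nonneg _)]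

/-- The ramp test function. -/
theorem weak_ramp {w : ℂ → ℝ} {Gw : ℂ → ℂ} {B a b : ℝ} (hGw : ContinuousOn Gw (U \ K))
    (hw : ∀ z ∈ U \ K, HasFDerivAt w (innerSL ℝ (Gw z)) z) (hB : ∀ z ∈ U \ K, |w z| ≤ B)
    (hB0 : 0 ≤ B) (hGw2 : IntegrableOn (fun z => ‖(U \ K).indicator Gw z‖ ^ 2) (ball x R))
    (ha : 0 < a) (hab : a < b) (hbR : b ≤ R) :
    |(∫ z in ball x b, down a b ‖z - x‖ * ⟪ext U K G z, (U \ K).indicator Gw z⟫) -
        (b - a)⁻¹ * ∫ z in ball x b \ ball x a,
          (U \ K).indicator w z * ⟪nrm x z, ext U K G z⟫| ≤ A * (B * (π * b ^ 2)) := by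
  classical
  have hUK := h.isOpen_compl
  have hpos : 0 < b - a := sub_pos.2 hab
  have hbU : closedBall x b ⊆ U := (closedBall_subset_closedBall hbR).trans hsub
  set f : ℂ → ℝ := fun z => down a b ‖z - x‖ * w z with hf
  have hfl : LocallyLipschitzOn (U \ K) f :=
    locLip_mul (locLip_down _ x hab) (locLip_of_grad hUK hGw hw)
  set φ := (U \ K).indicator f with hφ
  set Gφ := (U \ K).indicator (gradOf f) with hGφ
  have hsob : IsSobolevOn (U \ K) φ Gφ := by
    refine (isSobolevOn_of_locallyLipschitzOn hUK hfl).congr hUK.measurableSet ?_ ?_ <;>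
      filter_upwards [ae_restrict_mem hUK.measurableSet] with z hz
    · rw [hφ, indicator_of_mem hz]
    · rw [hGφ, indicator_of_mem hz]
  have hb : ∀ z, |φ z| ≤ B := fun z => by
    rw [hφ, indicator_apply]
    split_ifs with hz
    · rw [hf, abs_mul, abs_of_nonneg (down_mem _ _ _).1]
      exact (mul_le_of_le_one_left (abs_nonneg _) (down_mem _ _ _).2).trans (hB z hz)
    · simpa using hB0
  have hC : ∀ z ∉ closedBall x b, φ z = 0 ∧ Gφ z = 0 := fun z hz => by
    rw [mem_closedBall, dist_eq_norm, not_le] at hz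
    constructor
    · rw [hφ, indicator_apply]; simp [hf, down_zero hab hz.le]
    · rw [hGφ, indicator_apply]
      split_ifs
      · have he : f =ᶠ[𝓝 z] fun _ => (0 : ℝ) := mem_of_superset
          ((isOpen_lt continuous_const (show Continuous fun y : ℂ => ‖y - x‖ by fun_prop)).mem_nhds hz)
          fun y (hy : b < ‖y - x‖) => by simp [hf, down_zero hab hy.le]
        simp only [gradOf, he.fderiv_eq, fderiv_fun_const, Pi.zero_apply,
          ContinuousLinearMap.zero_apply]
        rfl
      · rfl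
  -- the gradient off the two spheres
  set Ann := ball x b \ ball x a with hAnn
  have hgrad : ∀ᵐ z : ℂ, z ∈ U \ K → gradOf f z =
      (if ‖z - x‖ < b then down a b ‖z - x‖ • Gw z else 0) +
        (if a ≤ ‖z - x‖ ∧ ‖z - x‖ < b then (-(b - a)⁻¹ * w z) • nrm x z else 0) := by
    filter_upwards [measure_eq_zero_iff_ae_notMem.1 (Measure.addHaar_sphere volume x a),
      measure_eq_zero_iff_ae_notMem.1 (Measure.addHaar_sphere volume x b)] with z hza hzb hz
    simp only [mem_sphere, dist_eq_norm] at hza hzb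
    have hc : Continuous fun y : ℂ => ‖y - x‖ := by fun_prop
    refine gradOf_eq_of_hasFDerivAt ?_
    rcases lt_or_gt_of_ne hza with hlt | hgt
    · rw [if_pos (hlt.trans hab), if_neg (fun hh => absurd hlt (not_lt.2 hh.1)), add_zero,
        down_one hab hlt.le, one_smul]
      refine (hw z hz).congr_of_eventuallyEq ?_
      exact mem_of_superset ((isOpen_lt hc continuous_const).mem_nhds hlt)
        fun y (hy : ‖y - x‖ < a) => by simp [hf, down_one hab hy.le]
    rcases lt_or_gt_of_ne hzb with hlt | hgt'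
    · rw [if_pos hlt, if_pos ⟨hgt.le, hlt⟩]
      have hzx : z ≠ x := fun hh => by
        rw [hh, sub_self, norm_zero] at hgt; linarith
      have hlin : ∀ ρ ∈ Ioo a b, down a b ρ = (b - ρ) * (b - a)⁻¹ := fun ρ hρ => by
        rw [down, div_eq_mul_inv, min_eq_right, max_eq_right]
        · exact mul_nonneg (by linarith [hρ.2]) (by positivity)
        · rw [← div_eq_mul_inv, div_le_one hpos]; linarith [hρ.1]
      have he : f =ᶠ[𝓝 z] fun y => (b - ‖y - x‖) * (b - a)⁻¹ * w y :=
        mem_of_superset (((isOpen_lt continuous_const hc).inter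
          (isOpen_lt hc continuous_const)).mem_nhds ⟨hgt, hlt⟩)
          fun y (hy : a < ‖y - x‖ ∧ ‖y - x‖ < b) => by simp [hf, hlin _ hy]
      refine ((((hasFDerivAt_norm_sub hzx).const_sub b).mul_const (b - a)⁻¹).mul
        (hw z hz)).congr_fderiv ?_ |>.congr_of_eventuallyEq he
      rw [hlin _ ⟨hgt, hlt⟩, map_add, map_smul, map_smul]
      simp only [smul_neg, neg_mul, neg_smul]
      rw [smul_smul, mul_comm (w z)]
    · rw [if_neg (not_lt.2 hgt'.le), if_neg (fun hh => absurd hgt' (not_lt.2 hh.2.le)), add_zero,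
        map_zero]
      refine (hasFDerivAt_const (0 : ℝ) z).congr_of_eventuallyEq ?_
      exact mem_of_superset ((isOpen_lt continuous_const hc).mem_nhds hgt')
        fun y (hy : b < ‖y - x‖) => by simp [hf, down_zero hab hy.le]
  have hballb : ∀ z, z ∈ ball x b ↔ ‖z - x‖ < b := fun z => by rw [mem_ball, dist_eq_norm]
  have hann : ∀ z, z ∈ Ann ↔ a ≤ ‖z - x‖ ∧ ‖z - x‖ < b := fun z => by
    rw [hAnn, Set.mem_sdiff, hballb, mem_ball, dist_eq_norm, not_lt, and_comm]
  -- integrability
  set Gi := ext U K G with hGi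
  set Gwi := (U \ K).indicator Gw with hGwi
  set wi := (U \ K).indicator w with hwi
  have hGim := measurable_ext h
  have hGwim : Measurable Gwi := measurable_indicator_of_continuousOn h hGw
  have hwim : Measurable wi := measurable_indicator_of_continuousOn h
    fun z hz => (hw z hz).continuousAt.continuousWithinAt
  have hdm : Measurable fun z : ℂ => down a b ‖z - x‖ := by unfold down; fun_prop
  set P1 := fun z => down a b ‖z - x‖ * ⟪Gi z, Gwi z⟫ with hP1
  set P2 := fun z => wi z * ⟪nrm x z, Gi z⟫ with hP2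
  have hwB : ∀ z, |wi z| ≤ B := fun z => by
    rw [hwi, indicator_apply]; split_ifs with hz
    · exact hB z hz
    · simpa using hB0
  have i1 : IntegrableOn P1 (ball x b) := by
    refine (((integrableOn_ext_sq h hsub).add hGw2).mono_set (ball_subset_ball hbR)).mono'
      ((hdm.mul (hGim.inner hGwim)).aestronglyMeasurable) (Eventually.of_forall fun z => ?_)
    rw [hP1, Real.norm_eq_abs, abs_mul, abs_of_nonneg (down_mem _ _ _).1]
    refine (mul_le_of_le_one_left (abs_nonneg _) (down_mem _ _ _).2).trans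
      ((abs_real_inner_le_norm _ _).trans ?_)
    simp only [Pi.add_apply]
    nlinarith [sq_nonneg (‖Gi z‖ - ‖Gwi z‖), norm_nonneg (Gi z), norm_nonneg (Gwi z)]
  have i2 : IntegrableOn P2 Ann := by
    refine (IntegrableOn.mono_set (((integrableOn_ext_sq h hsub).add
      (integrableOn_const (C := (1 : ℝ)) measure_ball_lt_top.ne)).const_mul B)
        (sdiff_subset.trans (ball_subset_ball hbR))).mono'
      ((hwim.mul ((measurable_nrm x).inner hGim)).aestronglyMeasurable)
      (Eventually.of_forall fun z => ?_)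
    rw [hP2, Real.norm_eq_abs, abs_mul]
    refine mul_le_mul (hwB z) ((abs_inner_nrm_le x z _).trans ?_) (abs_nonneg _) hB0
    simp only [Pi.add_apply]
    nlinarith [sq_nonneg (‖Gi z‖ - 1)]
  have hgfin : ∫⁻ z in closedBall x b \ K, ‖Gφ z‖ₑ ^ 2 < ⊤ := by
    have hbd : IntegrableOn (fun z => 2 * ‖Gwi z‖ ^ 2 + 2 * ((b - a)⁻¹ * B) ^ 2) (ball x b) :=
      ((hGw2.mono_set (ball_subset_ball hbR)).const_mul 2).add
        (integrableOn_const measure_ball_lt_top.ne)
    have h3 : (closedBall x b : Set ℂ) =ᵐ[volume] ball x b := by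
      rw [← ball_union_sphere]
      exact union_ae_eq_left_of_ae_eq_empty (ae_eq_empty.2 (Measure.addHaar_sphere volume x b))
    refine lt_of_le_of_lt ((lintegral_mono_set sdiff_subset).trans_eq (setLIntegral_congr h3)) ?_
    refine lt_of_le_of_lt (lintegral_mono_ae ?_)
      ((hbd.norm.lintegral_lt_top) : ∫⁻ z in ball x b, ENNReal.ofReal
        ‖2 * ‖Gwi z‖ ^ 2 + 2 * ((b - a)⁻¹ * B) ^ 2‖ < ⊤)
    filter_upwards [ae_restrict_of_ae hgrad] with z hz
    rw [← ofReal_norm, ← ENNReal.ofReal_pow (norm_nonneg _)]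
    refine ENNReal.ofReal_le_ofReal (le_trans ?_ (Real.le_norm_self _))
    by_cases hzU : z ∈ U \ K
    · rw [hGφ, indicator_of_mem hzU, hz hzU, hGwi, indicator_of_mem hzU]
      have e1 : ‖(if ‖z - x‖ < b then down a b ‖z - x‖ • Gw z else 0)‖ ≤ ‖Gw z‖ := by
        split_ifs
        · rw [norm_smul, Real.norm_of_nonneg (down_mem _ _ _).1]
          exact mul_le_of_le_one_left (norm_nonneg _) (down_mem _ _ _).2
        · simp
      have e2 : ‖(if a ≤ ‖z - x‖ ∧ ‖z - x‖ < b then (-(b - a)⁻¹ * w z) • nrm x z else 0)‖ ≤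
          (b - a)⁻¹ * B := by
        split_ifs
        · rw [norm_smul, Real.norm_eq_abs, abs_mul, abs_neg, abs_of_pos (inv_pos.2 hpos)]
          exact (mul_le_of_le_one_right (by positivity) (norm_nrm_le x z)).trans
            (mul_le_mul_of_nonneg_left (hB z hzU) (by positivity))
        · simp; positivity
      nlinarith [pow_le_pow_left₀ (norm_nonneg _) ((norm_add_le _ _).trans (add_le_add e1 e2)) 2,
        sq_nonneg (‖Gw z‖ - (b - a)⁻¹ * B)]
    · rw [hGφ, indicator_of_notMem hzU]
      simp; positivity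
  have heqn := h.weakEq φ Gφ _ (isCompact_closedBall x b) hbU hsob ⟨B, hb⟩ hC hgfin
  have hae : ∀ᵐ z : ℂ, (U \ K).indicator (fun z => ⟪G z, Gφ z⟫) z =
      (ball x b).indicator P1 z - (b - a)⁻¹ * Ann.indicator P2 z := by
    filter_upwards [hgrad] with z hz
    by_cases hzU : z ∈ U \ K
    · rw [indicator_of_mem hzU, hGφ, indicator_of_mem hzU, hz hzU, inner_add_right,
        indicator_apply, indicator_apply]
      simp only [hballb z, hann z, hP1, hP2, hGi, ext, hGwi, hwi, indicator_of_mem hzU]
      split_ifs <;> simp only [inner_zero_right, real_inner_smul_right, mul_zero, add_zero,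
        zero_add, sub_zero, zero_sub, real_inner_comm (G z) (nrm x z)] <;> ring
    · rw [indicator_of_notMem hzU]
      have e1 : P1 z = 0 := by simp only [hP1, hGwi, indicator_of_notMem hzU, inner_zero_right, mul_zero]
      have e2 : P2 z = 0 := by simp only [hP2, hwi, indicator_of_notMem hzU, zero_mul]
      simp [indicator_apply, e1, e2]
  rw [← integral_indicator hUK.measurableSet, integral_congr_ae hae,
    integral_sub ((integrable_indicator_iff measurableSet_ball).2 i1)
      (((integrable_indicator_iff (measurableSet_ball.diff measurableSet_ball)).2 i2).const_mul _),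
    integral_const_mul, integral_indicator measurableSet_ball,
    integral_indicator (measurableSet_ball.diff measurableSet_ball)] at heqn
  refine heqn.trans (mul_le_mul_of_nonneg_left ?_ h.A_nonneg)
  have hvol : (volume (closedBall x b)).toReal = π * b ^ 2 := by
    rw [Complex.volume_closedBall, ENNReal.toReal_mul, ENNReal.toReal_pow,
      ENNReal.toReal_ofReal (ha.trans hab).le, ENNReal.coe_toReal, NNReal.coe_real_pi]
    ring
  rw [← setIntegral_eq_integral_of_forall_compl_eq_zero (s := closedBall x b)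
    (μ := volume.restrict (U \ K)) (f := fun y => |φ y|) fun y hy => by simp [(hC y hy).1]]
  have hfin : (volume.restrict (U \ K)) (closedBall x b) < ⊤ :=
    (Measure.restrict_apply_le _ _).trans_lt measure_closedBall_lt_top
  have h2 := norm_setIntegral_le_of_norm_le_const (f := fun y => |φ y|) hfin (C := B)
    fun y _ => by rw [Real.norm_eq_abs, abs_abs]; exact hb y
  rw [Real.norm_eq_abs] at h2
  rw [← hvol]
  exact ((le_abs_self _).trans h2).trans (mul_le_mul_of_nonneg_left (ENNReal.toReal_mono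
    measure_closedBall_lt_top.ne (Measure.restrict_apply_le _ _)) hB0)

theorem tendsto_flux {F : ℂ → ℝ} (hm : Measurable F) (hF : IntegrableOn F (ball x R)) :
    ∀ᵐ r : ℝ, r ∈ Ioo 0 R → Tendsto
      (fun b => (b - r)⁻¹ * ∫ z in ball x b \ ball x r, F z) (𝓝[>] r) (𝓝 (circInt F x r)) := by
  rcases le_or_gt R 0 with hR | hR
  · exact Eventually.of_forall fun r hr => absurd (hr.1.trans hr.2) (not_lt.2 hR)
  obtain ⟨hi, -⟩ := polar_ball hm hF hR.le
  filter_upwards [hi.ae_hasDerivAt_integral] with r hr hrR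
  have hd := hr (by rw [uIcc_of_le hR.le]; exact Ioo_subset_Icc_self hrR) 0 left_mem_uIcc
  have hs := (hasDerivAt_iff_tendsto_slope.1 hd).mono_left
    (nhdsWithin_mono r fun b (hb : r < b) => hb.ne')
  refine hs.congr' ?_
  filter_upwards [Ioo_mem_nhdsGT hrR.2] with b hb
  have hii : ∀ c d : ℝ, 0 ≤ c → c ≤ d → d ≤ R → IntervalIntegrable (circInt F x) volume c d :=
    fun c d hc hcd hd => hi.mono_set (by
      rw [uIcc_of_le hcd, uIcc_of_le hR.le]; exact Icc_subset_Icc hc hd)
  have hadd := intervalIntegral.integral_add_adjacent_intervals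
    (hii 0 r le_rfl hrR.1.le hrR.2.le) (hii r b hrR.1.le hb.1.le hb.2.le)
  rw [polar_annulus hm hF hrR.1.le hb.1.le hb.2.le, slope_def_field, ← hadd, add_sub_cancel_left,
    div_eq_inv_mul]

/-- **The weak equation on almost every circle.** -/
theorem flux_ae {c₀ : ℝ} (hc₀ : ∀ z ∈ U \ K, |u z - c₀| ≤ M) :
    ∀ᵐ r : ℝ, r ∈ Ioo 0 R →
      |den U K G x r - circInt (fun z => (U \ K).indicator (fun z => u z - c₀) z *
          ⟪nrm x z, ext U K G z⟫) x r| ≤ A * M * (π * r ^ 2) ∧
        |circInt (fun z => ⟪nrm x z, ext U K G z⟫) x r| ≤ A * (π * r ^ 2) := by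
  have hm := measurable_ext h
  set F0 := fun z => ⟪nrm x z, ext U K G z⟫ with hF0
  set F1 := fun z => (U \ K).indicator (fun z => u z - c₀) z * F0 z with hF1
  have hm0 : Measurable F0 := (measurable_nrm x).inner hm
  have hwm : Measurable ((U \ K).indicator fun z => u z - c₀) :=
    measurable_indicator_of_continuousOn h fun z hz =>
      ((h.hasGrad z hz).continuousAt.sub continuousAt_const).continuousWithinAt
  have hm1 : Measurable F1 := hwm.mul hm0
  have hi0 : IntegrableOn F0 (ball x R) := by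
    refine ((integrableOn_ext_sq h hsub).add
      (integrableOn_const (C := (1 : ℝ)) measure_ball_lt_top.ne)).mono' hm0.aestronglyMeasurable
      (Eventually.of_forall fun z => ?_)
    rw [Real.norm_eq_abs]
    refine (abs_inner_nrm_le x z _).trans ?_
    simp only [Pi.add_apply]
    nlinarith [sq_nonneg (‖ext U K G z‖ - 1)]
  have hi1 : IntegrableOn F1 (ball x R) := by
    refine Integrable.bdd_mul (c := M) hi0 hwm.aestronglyMeasurable
      (Eventually.of_forall fun z => ?_)
    classical
    rw [indicator_apply, Real.norm_eq_abs]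
    split_ifs with hz
    · exact hc₀ z hz
    · simpa using h.M_nonneg
  filter_upwards [tendsto_flux h hsub hm1 hi1, tendsto_flux h hsub hm0 hi0] with r h1 h0 hr
  have hR : 0 < R := hr.1.trans hr.2
  -- continuity of the energy
  obtain ⟨hie, hde⟩ := polar_ball ((measurable_ext h).norm.pow_const 2) (integrableOn_ext_sq h hsub)
    hR.le (x := x)
  have hden : Tendsto (den U K G x) (𝓝[>] r) (𝓝 (den U K G x r)) := by
    have hc := intervalIntegral.continuousOn_primitive_interval' hie (a := 0) left_mem_uIcc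
    rw [uIcc_of_le hR.le] at hc
    have hat := (hc r (Ioo_subset_Icc_self hr)).tendsto.mono_left
      (nhdsWithin_le_of_mem (Icc_mem_nhdsGT_of_mem ⟨hr.1.le, hr.2⟩))
    rw [den, hde r (Ioo_subset_Icc_self hr)]
    refine hat.congr' ?_
    filter_upwards [Ioo_mem_nhdsGT hr.2] with b hb
    exact (hde b ⟨(hr.1.trans hb.1).le, hb.2.le⟩).symm
  have hsq : Tendsto (fun b : ℝ => π * b ^ 2) (𝓝[>] r) (𝓝 (π * r ^ 2)) :=
    ((continuous_const.mul (continuous_pow 2)).tendsto r).mono_left nhdsWithin_le_nhds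
  constructor
  · -- the test with `u - c₀`
    have key : ∀ᶠ b in 𝓝[>] r, |den U K G x r - (b - r)⁻¹ * ∫ z in ball x b \ ball x r, F1 z| ≤
        A * (M * (π * b ^ 2)) + (den U K G x b - den U K G x r) := by
      filter_upwards [Ioo_mem_nhdsGT hr.2] with b hb
      have hw := weak_ramp h hsub (w := fun z => u z - c₀) (Gw := G) (B := M) h.contGrad
        (fun z hz => (h.hasGrad z hz).sub_const c₀) hc₀ h.M_nonneg (integrableOn_ext_sq h hsub)
        hr.1 hb.1 hb.2.le
      rw [show (U \ K).indicator G = ext U K G from rfl] at hw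
      set P := ∫ z in ball x b, down r b ‖z - x‖ * ⟪ext U K G z, ext U K G z⟫ with hP
      have hmono : den U K G x r ≤ P ∧ P ≤ den U K G x b := by
        have hib := (integrableOn_ext_sq h hsub).mono_set (ball_subset_ball (x := x) hb.2.le)
        have hdm : Measurable fun z : ℂ => down r b ‖z - x‖ := by unfold down; fun_prop
        have hiP : IntegrableOn (fun z => down r b ‖z - x‖ * ‖ext U K G z‖ ^ 2) (ball x b) :=
          Integrable.bdd_mul (c := 1) hib hdm.aestronglyMeasurable (Eventually.of_forall fun z => by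
            rw [Real.norm_eq_abs, abs_of_nonneg (down_mem _ _ _).1]; exact (down_mem _ _ _).2)
        rw [hP]
        simp only [real_inner_self_eq_norm_sq]
        constructor
        · rw [den]
          refine le_of_eq_of_le ?_ (setIntegral_mono_set hiP
            (Eventually.of_forall fun z => mul_nonneg (down_mem _ _ _).1 (sq_nonneg _))
            (Eventually.of_forall fun z hz => ball_subset_ball hb.1.le hz))
          refine setIntegral_congr_fun measurableSet_ball fun z hz => ?_
          rw [mem_ball, dist_eq_norm] at hz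
          simp [down_one hb.1 hz.le]
        · exact setIntegral_mono_on hiP hib measurableSet_ball fun z _ =>
            mul_le_of_le_one_left (sq_nonneg _) (down_mem _ _ _).2
      rw [abs_le] at hw ⊢
      constructor <;> linarith [hmono.1, hmono.2]
    have hl : Tendsto (fun b => A * (M * (π * b ^ 2)) + (den U K G x b - den U K G x r)) (𝓝[>] r)
        (𝓝 (A * M * (π * r ^ 2))) := by
      have := ((hsq.const_mul M).const_mul A).add (hden.sub_const (den U K G x r))
      rwa [sub_self, add_zero, ← mul_assoc] at this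
    exact le_of_tendsto_of_tendsto ((tendsto_const_nhds.sub (h1 hr)).abs) hl key
  · -- the test with `1`
    have key : ∀ᶠ b in 𝓝[>] r, |(b - r)⁻¹ * ∫ z in ball x b \ ball x r, F0 z| ≤ A * (π * b ^ 2) := by
      filter_upwards [Ioo_mem_nhdsGT hr.2] with b hb
      have hw := weak_ramp h hsub (w := fun _ => (1 : ℝ)) (Gw := fun _ => 0) (B := 1)
        continuousOn_const (fun z _ => (hasFDerivAt_const (1 : ℝ) z).congr_fderiv (by simp))
        (fun z _ => by simp) zero_le_one (by simp) hr.1 hb.1 hb.2.le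
      simp only [indicator_zero, inner_zero_right, mul_zero, integral_zero, zero_sub, abs_neg,
        one_mul] at hw
      refine le_trans (le_of_eq ?_) hw
      congr 2
      refine setIntegral_congr_fun (measurableSet_ball.diff measurableSet_ball) fun z _ => ?_
      simp only [hF0, ext]
      by_cases hz : z ∈ U \ K
      · simp [indicator_of_mem hz]
      · simp [indicator_of_notMem hz]
    exact le_of_tendsto_of_tendsto ((h0 hr).abs) (hsq.const_mul A) key

end

end Vale.Agent.P128.Regularity.Tip
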