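import Vale.Agent.P128.Bridge.CircleTest
import Vale.Agent.P128.Regularity.Tip.Radial
import Vale.Agent.P128.Regularity.TipAlgebra

/-!
# P128 R11: one circle with one crossing
-/

open MeasureTheory Set Metric Filter
open scoped ENNReal NNReal Topology Real RealInnerProductSpace

noncomputable section

namespace Vale.Agent.P128.Regularity.Tip

open Vale.Agent.P128.Bridge

/-- The unit vector of angle `θ`. -/
def dirv (θ : ℝ) : ℂ := Complex.exp (θ * Complex.I)

theorem norm_dirv (θ : ℝ) : ‖dirv θ‖ = 1 := Complex.norm_exp_ofReal_mul_I θ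

theorem dirv_re_im (θ : ℝ) : (dirv θ).re = Real.cos θ ∧ (dirv θ).im = Real.sin θ :=
  ⟨Complex.exp_ofReal_mul_I_re θ, Complex.exp_ofReal_mul_I_im θ⟩

theorem circleMap_dirv (x : ℂ) (r θ : ℝ) : circleMap x r θ = x + r • dirv θ := by
  simp [circleMap, dirv, Complex.real_smul]

theorem nrm_circleMap (x : ℂ) {r : ℝ} (hr : 0 < r) (θ : ℝ) :
    nrm x (circleMap x r θ) = dirv θ := by
  rw [nrm, circleMap_dirv, add_sub_cancel_left, norm_smul, norm_dirv, mul_one,
    Real.norm_of_nonneg hr.le, smul_smul, inv_mul_cancel₀ hr.ne', one_smul]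

theorem inner_dirv (φ t : ℝ) (g : ℂ) :
    ⟪dirv φ, g⟫ = ⟪g, dirv (φ + t)⟫ * Real.cos t - ⟪g, dirv (φ + t) * Complex.I⟫ * Real.sin t ∧
      ⟪dirv (φ + t), dirv φ⟫ = Real.cos t := by
  simp only [Complex.inner, Complex.mul_re, Complex.mul_im, Complex.conj_re, Complex.conj_im,
    Complex.I_re, Complex.I_im, (dirv_re_im φ).1, (dirv_re_im φ).2, (dirv_re_im (φ + t)).1,
    (dirv_re_im (φ + t)).2, Real.cos_add, Real.sin_add]
  constructor
  · linear_combination (-(g.re * Real.cos φ + g.im * Real.sin φ)) * Real.sin_sq_add_cos_sq t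
  · linear_combination Real.cos t * Real.sin_sq_add_cos_sq φ

variable (U K : Set ℂ) (G : ℂ → ℂ) (x : ℂ) (r φ : ℝ)

/-- Radial derivative, scaled. -/
def pC (t : ℝ) : ℝ := Real.sqrt r * ⟪ext U K G (circleMap x r (φ + t)), dirv (φ + t)⟫

/-- Tangential derivative, scaled. -/
def qC (t : ℝ) : ℝ := Real.sqrt r * ⟪ext U K G (circleMap x r (φ + t)), dirv (φ + t) * Complex.I⟫

/-- The trace, centred at the antipode, scaled. -/
def VC (t : ℝ) : ℝ := ∫ s in π..t, qC U K G x r φ s

/-- Energy of the cap. -/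
def tau : ℝ := ∫ t in (0 : ℝ)..2 * π, VC U K G x r φ t ^ 2 / 4 + qC U K G x r φ t ^ 2

variable {U K G x r φ}

theorem circle_periodic (F : ℂ → ℝ) (x : ℂ) (r : ℝ) :
    Function.Periodic (fun θ => F (circleMap x r θ)) (2 * π) := fun θ => by
  simp only [periodic_circleMap x r θ]

theorem shift_integral (F : ℂ → ℝ) (x : ℂ) (r φ : ℝ) :
    ∫ θ in (-π)..π, F (circleMap x r θ) =
      ∫ t in (0 : ℝ)..2 * π, F (circleMap x r (φ + t)) := by
  rw [intervalIntegral.integral_comp_add_left (fun θ => F (circleMap x r θ)) φ, add_zero,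
    ← (circle_periodic F x r).intervalIntegral_add_eq (-π) φ, show -π + 2 * π = π by ring]

theorem shift_integrable {F : ℂ → ℝ} (h : IntervalIntegrable (fun θ => F (circleMap x r θ)) volume (-π) π)
    (a b : ℝ) : IntervalIntegrable (fun t => F (circleMap x r (φ + t))) volume a b := by
  have := ((circle_periodic F x r).intervalIntegrable Real.two_pi_pos.ne'
    (t := -π) (by rwa [show -π + 2 * π = π by ring]) (φ + a) (φ + b)).comp_add_left φ
  simpa using this

section

variable {u : ℂ → ℝ} {A M Λ : ℝ} (h : IsAlmostMin U K u G A M Λ) (hr : 0 < r)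
  (hfree : ∀ t ∈ Ioo 0 (2 * π), circleMap x r (φ + t) ∈ U \ K)
  (hint : IntervalIntegrable (fun θ => ‖ext U K G (circleMap x r θ)‖ ^ 2) volume (-π) π)
include h hr hfree hint

theorem measurable_pq : Measurable (pC U K G x r φ) ∧ Measurable (qC U K G x r φ) := by
  have h1 : Measurable fun t : ℝ => ext U K G (circleMap x r (φ + t)) :=
    (measurable_ext h).comp ((continuous_circleMap x r).comp (continuous_const_add φ)).measurable
  have h2 : Measurable fun t : ℝ => dirv (φ + t) := by unfold dirv; fun_prop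
  exact ⟨(h1.inner h2).const_mul _, (h1.inner (h2.mul_const _)).const_mul _⟩

theorem pq_sq (t : ℝ) : pC U K G x r φ t ^ 2 + qC U K G x r φ t ^ 2 =
    r * ‖ext U K G (circleMap x r (φ + t))‖ ^ 2 := by
  rw [pC, qC, mul_pow, mul_pow, ← mul_add, Real.sq_sqrt hr.le, inner_sq_split, norm_dirv, one_pow,
    one_mul]

theorem integrable_pq :
    IntervalIntegrable (pC U K G x r φ) volume 0 (2 * π) ∧
      IntervalIntegrable (qC U K G x r φ) volume 0 (2 * π) ∧
      IntervalIntegrable (fun t => pC U K G x r φ t ^ 2) volume 0 (2 * π) ∧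
      IntervalIntegrable (fun t => qC U K G x r φ t ^ 2) volume 0 (2 * π) := by
  obtain ⟨hpm, hqm⟩ := measurable_pq h hr hfree hint
  have hbase := (shift_integrable (F := fun z => ‖ext U K G z‖ ^ 2) (φ := φ) hint 0 (2 * π)).const_mul r
  have h1 : IntervalIntegrable (fun _ : ℝ => (1 : ℝ)) volume 0 (2 * π) := intervalIntegrable_const
  refine ⟨(hbase.add h1).mono_fun hpm.aestronglyMeasurable (Eventually.of_forall fun t => ?_),
    (hbase.add h1).mono_fun hqm.aestronglyMeasurable (Eventually.of_forall fun t => ?_),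
    hbase.mono_fun (hpm.pow_const 2).aestronglyMeasurable (Eventually.of_forall fun t => ?_),
    hbase.mono_fun (hqm.pow_const 2).aestronglyMeasurable (Eventually.of_forall fun t => ?_)⟩
  all_goals simp only [Real.norm_eq_abs, ← pq_sq h hr hfree hint t]
  · rw [abs_of_nonneg (show 0 ≤ pC U K G x r φ t ^ 2 + qC U K G x r φ t ^ 2 + 1 by positivity)]
    nlinarith [sq_nonneg (|pC U K G x r φ t| - 1), sq_abs (pC U K G x r φ t)]
  · rw [abs_of_nonneg (show 0 ≤ pC U K G x r φ t ^ 2 + qC U K G x r φ t ^ 2 + 1 by positivity)]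
    nlinarith [sq_nonneg (|qC U K G x r φ t| - 1), sq_abs (qC U K G x r φ t)]
  · rw [abs_of_nonneg (sq_nonneg _), abs_of_nonneg (by positivity)]
    linarith [sq_nonneg (qC U K G x r φ t)]
  · rw [abs_of_nonneg (sq_nonneg _), abs_of_nonneg (by positivity)]
    linarith [sq_nonneg (pC U K G x r φ t)]

theorem continuous_VC : ContinuousOn (VC U K G x r φ) (Icc 0 (2 * π)) := by
  have hp := Real.pi_pos
  have := intervalIntegral.continuousOn_primitive_interval' (integrable_pq h hr hfree hint).2.1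
    (a := π) (by rw [uIcc_of_le (by linarith)]; exact ⟨hp.le, by linarith⟩)
  rwa [uIcc_of_le (by linarith)] at this

theorem continuousAt_qC {t : ℝ} (ht : t ∈ Ioo 0 (2 * π)) : ContinuousAt (qC U K G x r φ) t := by
  have hU := h.isOpen_compl
  have h1 : ContinuousAt (fun z => ext U K G z) (circleMap x r (φ + t)) := by
    refine ((h.contGrad.continuousAt (hU.mem_nhds (hfree t ht)))).congr ?_
    exact mem_of_superset (hU.mem_nhds (hfree t ht)) fun z hz => (indicator_of_mem hz G).symm
  have h2 : ContinuousAt (fun t : ℝ => ext U K G (circleMap x r (φ + t))) t :=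
    h1.comp (f := fun t : ℝ => circleMap x r (φ + t))
      ((continuous_circleMap x r).comp (continuous_const_add φ)).continuousAt
  exact continuousAt_const.mul (h2.inner (by unfold dirv; fun_prop))

theorem hasDerivAt_VC {t : ℝ} (ht : t ∈ Ioo 0 (2 * π)) :
    HasDerivAt (VC U K G x r φ) (qC U K G x r φ t) t := by
  have hp := Real.pi_pos
  refine intervalIntegral.integral_hasDerivAt_right
    ((integrable_pq h hr hfree hint).2.1.mono_set ?_)
    (measurable_pq h hr hfree hint).2.stronglyMeasurable.stronglyMeasurableAtFilter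
    (continuousAt_qC h hr hfree hint ht)
  rw [uIcc_of_le (show (0 : ℝ) ≤ 2 * π by linarith)]
  exact uIcc_subset_Icc ⟨hp.le, by linarith⟩ (Ioo_subset_Icc_self ht)

/-- The trace is the primitive. -/
theorem trace_eq {t : ℝ} (ht : t ∈ Ioo 0 (2 * π)) :
    u (circleMap x r (φ + t)) - u (circleMap x r (φ + π)) = Real.sqrt r * VC U K G x r φ t := by
  have hp := Real.pi_pos
  have hsub : uIcc π t ⊆ Ioo 0 (2 * π) := fun s hs => by
    rcases mem_uIcc.1 hs with hs' | hs' <;> constructor <;> linarith [ht.1, ht.2, hs'.1, hs'.2]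
  have hd : ∀ s ∈ uIcc π t,
      HasDerivAt (fun s => u (circleMap x r (φ + s))) (Real.sqrt r * qC U K G x r φ s) s := by
    intro s hs
    have hm := hfree s (hsub hs)
    have h1 := ((h.hasGrad _ hm).comp_hasDerivAt (φ + s) (hasDerivAt_circleMap x r (φ + s))).comp_const_add φ s
    refine h1.congr_deriv ?_
    rw [qC, ext, indicator_of_mem hm, innerSL_apply_apply, ← mul_assoc, Real.mul_self_sqrt hr.le,
      circleMap_dirv 0 r, zero_add, smul_mul_assoc, real_inner_smul_right]
  have hi := ((integrable_pq h hr hfree hint).2.1.mono_set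
    (hsub.trans (Ioo_subset_Icc_self.trans Icc_subset_uIcc))).const_mul (Real.sqrt r)
  rw [VC, ← intervalIntegral.integral_const_mul, intervalIntegral.integral_eq_sub_of_hasDerivAt hd hi]

theorem VC_sq_le {t : ℝ} (ht : t ∈ Icc 0 (2 * π)) :
    VC U K G x r φ t ^ 2 ≤ π * ∫ s in (0 : ℝ)..2 * π, qC U K G x r φ s ^ 2 := by
  have hp := Real.pi_pos
  obtain ⟨-, hq, -, hq2⟩ := integrable_pq h hr hfree hint
  set E := ∫ s in (0 : ℝ)..2 * π, qC U K G x r φ s ^ 2
  have hsub : uIcc π t ⊆ uIcc 0 (2 * π) := by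
    rw [uIcc_of_le (show (0 : ℝ) ≤ 2 * π by linarith)]
    exact uIcc_subset_Icc ⟨hp.le, by linarith⟩ ht
  set a := min π t
  set b := max π t
  have hab : a ≤ b := min_le_max
  have hab' : b - a ≤ π := by
    rcases le_total π t with hle | hle <;> simp [a, b, hle] <;> linarith [ht.1, ht.2]
  have hi := hq.mono_set (show uIcc a b ⊆ uIcc 0 (2 * π) from fun s hs => hsub (by
    rwa [uIcc_of_le hab] at hs))
  have hi2 := hq2.mono_set (show uIcc a b ⊆ uIcc 0 (2 * π) from fun s hs => hsub (by
    rwa [uIcc_of_le hab] at hs))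
  have habs : VC U K G x r φ t ^ 2 = (∫ s in a..b, qC U K G x r φ s) ^ 2 := by
    rcases le_total π t with hle | hle
    · simp [VC, a, b, hle]
    · rw [VC, intervalIntegral.integral_symm t π, neg_sq]; simp [a, b, hle]
  rw [habs]
  set I := ∫ s in a..b, qC U K G x r φ s with hI
  have hE : ∫ s in a..b, qC U K G x r φ s ^ 2 ≤ E :=
    intervalIntegral.integral_mono_interval (le_min hp.le ht.1) hab (max_le (by linarith) ht.2)
      (Eventually.of_forall fun s => sq_nonneg _) hq2
  have hE0 : 0 ≤ ∫ s in a..b, qC U K G x r φ s ^ 2 :=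
    intervalIntegral.integral_nonneg hab fun s _ => sq_nonneg _
  rcases hab.eq_or_lt with heq | hlt
  · rw [hI, heq, intervalIntegral.integral_same]
    nlinarith
  set c := I / (b - a) with hc
  have h1 : 0 ≤ ∫ s in a..b, (qC U K G x r φ s ^ 2 - 2 * c * qC U K G x r φ s + c ^ 2) :=
    intervalIntegral.integral_nonneg hab fun s _ => by nlinarith [sq_nonneg (qC U K G x r φ s - c)]
  rw [intervalIntegral.integral_add (hi2.sub (hi.const_mul _)) intervalIntegrable_const,
    intervalIntegral.integral_sub hi2 (hi.const_mul _), intervalIntegral.integral_const_mul, ← hI,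
    intervalIntegral.integral_const, smul_eq_mul] at h1
  have e : I = c * (b - a) := by rw [hc, div_mul_cancel₀ _ (sub_pos.2 hlt).ne']
  rw [e] at h1 ⊢
  nlinarith [sub_pos.2 hlt, mul_le_mul hab' hE hE0 hp.le]

theorem energy_eq :
    ∫ t in (0 : ℝ)..2 * π, pC U K G x r φ t ^ 2 + qC U K G x r φ t ^ 2 =
      circInt (fun z => ‖ext U K G z‖ ^ 2) x r := by
  simp only [pq_sq h hr hfree hint]
  rw [intervalIntegral.integral_const_mul, circInt, ← shift_integral (fun z => ‖ext U K G z‖ ^ 2)]

theorem stress_eq :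
    circInt (stress (ext U K G) x (dirv φ)) x r = ∫ t in (0 : ℝ)..2 * π,
      (pC U K G x r φ t ^ 2 - qC U K G x r φ t ^ 2) * Real.cos t -
        2 * (pC U K G x r φ t * qC U K G x r φ t) * Real.sin t := by
  rw [circInt, shift_integral _ x r φ, ← intervalIntegral.integral_const_mul]
  refine intervalIntegral.integral_congr fun t _ => ?_
  set g := ext U K G (circleMap x r (φ + t)) with hg
  obtain ⟨e1, e2⟩ := inner_dirv φ t g
  have e3 := inner_sq_split g (dirv (φ + t))
  rw [norm_dirv, one_pow, one_mul] at e3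
  simp only [pC, qC, ← hg]
  have e4 := Real.mul_self_sqrt hr.le
  rw [stress, ← hg, ← nrm, nrm_circleMap x hr, e1, e2, ← e3, real_inner_comm g (dirv (φ + t))]
  linear_combination (-((⟪g, dirv (φ + t)⟫ ^ 2 - ⟪g, dirv (φ + t) * Complex.I⟫ ^ 2) * Real.cos t -
    2 * (⟪g, dirv (φ + t)⟫ * ⟪g, dirv (φ + t) * Complex.I⟫) * Real.sin t)) * e4

theorem flux_eq (c₀ : ℝ) :
    circInt (fun z => (U \ K).indicator (fun z => u z - c₀) z * ⟪nrm x z, ext U K G z⟫) x r =
      r * (∫ t in (0 : ℝ)..2 * π, pC U K G x r φ t * VC U K G x r φ t) +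
        (u (circleMap x r (φ + π)) - c₀) * circInt (fun z => ⟪nrm x z, ext U K G z⟫) x r := by
  have hp := Real.pi_pos
  obtain ⟨hpi, -, -, -⟩ := integrable_pq h hr hfree hint
  have hs := Real.sqrt_pos.2 hr
  set c := u (circleMap x r (φ + π))
  have hf0 : ∀ t, ⟪nrm x (circleMap x r (φ + t)), ext U K G (circleMap x r (φ + t))⟫ =
      pC U K G x r φ t / Real.sqrt r := fun t => by
    rw [nrm_circleMap x hr, pC, mul_div_cancel_left₀ _ hs.ne', real_inner_comm]
  rw [circInt, circInt,
    shift_integral (fun z => (U \ K).indicator (fun z => u z - c₀) z * ⟪nrm x z, ext U K G z⟫) x r φ,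
    shift_integral (fun z => ⟪nrm x z, ext U K G z⟫) x r φ]
  simp only [hf0]
  have hae : ∫ t in (0 : ℝ)..2 * π, (U \ K).indicator (fun z => u z - c₀) (circleMap x r (φ + t)) *
      (pC U K G x r φ t / Real.sqrt r) = ∫ t in (0 : ℝ)..2 * π,
        (pC U K G x r φ t * VC U K G x r φ t + (c - c₀) * (pC U K G x r φ t / Real.sqrt r)) := by
    refine intervalIntegral.integral_congr_ae ?_
    have h2π : ∀ᵐ t : ℝ, t ≠ 2 * π := by simp [ae_iff, measure_singleton]
    filter_upwards [h2π] with t h2 ht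
    rw [uIoc_of_le (by linarith)] at ht
    have ht' : t ∈ Ioo 0 (2 * π) := ⟨ht.1, lt_of_le_of_ne ht.2 h2⟩
    rw [indicator_of_mem (hfree t ht'),
      show u (circleMap x r (φ + t)) - c₀ = Real.sqrt r * VC U K G x r φ t + (c - c₀) by
        linarith [trace_eq h hr hfree hint ht']]
    field_simp
  rw [hae, intervalIntegral.integral_add
      (hpi.mul_continuousOn (by rw [uIcc_of_le (by linarith)]; exact continuous_VC h hr hfree hint))
      ((hpi.div_const _).const_mul _), intervalIntegral.integral_const_mul]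
  ring

/-- **The facts on one circle**, from the weak equation there. -/
theorem circle_facts {c₀ y l : ℝ} (hl : 0 < l) (hM : |u (circleMap x r (φ + π)) - c₀| ≤ M)
    (h1 : |r * y - circInt (fun z => (U \ K).indicator (fun z => u z - c₀) z *
      ⟪nrm x z, ext U K G z⟫) x r| ≤ A * M * (π * r ^ 2))
    (h0 : |circInt (fun z => ⟪nrm x z, ext U K G z⟫) x r| ≤ A * (π * r ^ 2)) :
    y - 8 * Λ * r ≤ circInt (fun z => ‖ext U K G z‖ ^ 2) x r ∧
      2 * y ≤ circInt (stress (ext U K G) x (dirv φ)) x r +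
        circInt (fun z => ‖ext U K G z‖ ^ 2) x r + 16 * Λ * r ∧
      tau U K G x r φ ≤ y + 8 * Λ * r +
        (1 + 1 / l) * (circInt (fun z => ‖ext U K G z‖ ^ 2) x r - y + 8 * Λ * r) +
        l * (20 * circInt (fun z => ‖ext U K G z‖ ^ 2) x r) := by
  have hp := Real.pi_pos
  obtain ⟨hpi, hqi, hp2, hq2⟩ := integrable_pq h hr hfree hint
  have hV := continuous_VC h hr hfree hint
  have hπ0 : VC U K G x r φ π = 0 := intervalIntegral.integral_same
  obtain ⟨g1, g2, g3⟩ := tip_identity hV (fun t ht => hasDerivAt_VC h hr hfree hint ht) hpi hp2 hq2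
    hπ0 hl
  obtain ⟨i1, i2, i3, i4⟩ := intervalIntegrable_parts hV
    (fun t ht => hasDerivAt_VC h hr hfree hint ht) hpi hp2 hq2
  have hpV : IntervalIntegrable (fun t => pC U K G x r φ t * VC U K G x r φ t) volume 0 (2 * π) :=
    hpi.mul_continuousOn (by rwa [uIcc_of_le (show (0 : ℝ) ≤ 2 * π by linarith)])
  set E := circInt (fun z => ‖ext U K G z‖ ^ 2) x r with hE
  set Y := ∫ t in (0 : ℝ)..2 * π, pC U K G x r φ t * VC U K G x r φ t with hY
  have e1 : ∫ t in (0 : ℝ)..2 * π, defect (VC U K G x r φ) (pC U K G x r φ) (qC U K G x r φ) t =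
      E - Y := by
    rw [hE, ← energy_eq h hr hfree hint, hY]
    exact intervalIntegral.integral_sub (hp2.add hq2) hpV
  have e2 : ∫ t in (0 : ℝ)..2 * π, stressGap (VC U K G x r φ) (pC U K G x r φ) (qC U K G x r φ) t =
      circInt (stress (ext U K G) x (dirv φ)) x r - Y := by
    rw [stress_eq h hr hfree hint, hY,
      ← intervalIntegral.integral_sub ((i2.add hpV).congr fun t _ => by simp [stressGap]) hpV]
    rfl
  have hV2 : IntervalIntegrable (fun t => VC U K G x r φ t ^ 2) volume 0 (2 * π) := i4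
  have e3 : ∫ t in (0 : ℝ)..2 * π, capGap (VC U K G x r φ) (pC U K G x r φ) (qC U K G x r φ) t =
      tau U K G x r φ - Y :=
    intervalIntegral.integral_sub ((hV2.div_const 4).add hq2) hpV
  rw [e1] at g1 g2 g3
  rw [e2] at g2
  rw [e3] at g3
  rw [abs_le] at g2
  -- `Y` is the energy ratio
  have hflux := flux_eq h hr hfree hint c₀
  rw [hflux, ← hY] at h1
  have hY' : |y - Y| ≤ 8 * Λ * r := by
    have h3 : |(u (circleMap x r (φ + π)) - c₀) *
        circInt (fun z => ⟪nrm x z, ext U K G z⟫) x r| ≤ A * M * (π * r ^ 2) := by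
      rw [abs_mul]
      exact (mul_le_mul hM h0 (abs_nonneg _) h.M_nonneg).trans_eq (by ring)
    have hAM : A * M * (π * r ^ 2) ≤ Λ * (4 * r ^ 2) :=
      mul_le_mul h.AM_le (mul_le_mul_of_nonneg_right Real.pi_le_four (sq_nonneg r)) (by positivity)
        ((mul_nonneg h.A_nonneg h.M_nonneg).trans h.AM_le)
    have h4 : |r * y - r * Y| ≤ 8 * Λ * r * r := by
      rw [abs_le] at h1 h3 ⊢
      constructor <;> nlinarith
    rw [← mul_sub, abs_mul, abs_of_pos hr, mul_comm (8 * Λ * r) r] at h4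
    exact le_of_mul_le_mul_left h4 hr
  rw [abs_le] at hY'
  have hVb : ∫ t in (0 : ℝ)..2 * π, VC U K G x r φ t ^ 2 ≤ 20 * E := by
    have hq : ∫ t in (0 : ℝ)..2 * π, qC U K G x r φ t ^ 2 ≤ E := by
      rw [hE, ← energy_eq h hr hfree hint]
      exact intervalIntegral.integral_mono_on (by linarith) hq2 (hp2.add hq2) fun t _ =>
        le_add_of_nonneg_left (sq_nonneg _)
    have hq0 : 0 ≤ ∫ t in (0 : ℝ)..2 * π, qC U K G x r φ t ^ 2 :=
      intervalIntegral.integral_nonneg (by linarith) fun t _ => sq_nonneg _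
    refine (intervalIntegral.integral_mono_on (by linarith) hV2 intervalIntegrable_const
      fun t ht => VC_sq_le h hr hfree hint ht).trans ?_
    rw [intervalIntegral.integral_const, smul_eq_mul, sub_zero]
    have h10 : 2 * π * π ≤ 20 := by nlinarith [Real.pi_lt_d2]
    calc 2 * π * (π * ∫ t in (0 : ℝ)..2 * π, qC U K G x r φ t ^ 2)
        = 2 * π * π * ∫ t in (0 : ℝ)..2 * π, qC U K G x r φ t ^ 2 := by ring
      _ ≤ 20 * E := mul_le_mul h10 hq hq0 (by norm_num)
  refine ⟨by linarith, by linarith, ?_⟩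
  have h5 := mul_le_mul_of_nonneg_left hVb hl.le
  have h6 : (1 + 1 / l) * (E - Y) ≤ (1 + 1 / l) * (E - y + 8 * Λ * r) :=
    mul_le_mul_of_nonneg_left (by linarith) (by positivity)
  linarith

end

end Vale.Agent.P128.Regularity.Tip
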