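import Vale.Agent.P128.Bridge.Cone
import Vale.Agent.P128.Regularity.Tip.Circle

/-!
# P128 R11: the cap competitor

Replace `K` in the disc by the radius to the crossing and `u` by the degree one half extension of
its trace.
-/

open MeasureTheory Set Metric Filter
open scoped ENNReal NNReal Topology Real RealInnerProductSpace

noncomputable section

namespace Vale.Agent.P128.Regularity.Tip

open Vale.Agent.P128.Bridge

theorem locLip_comp {s t : Set ℂ} {f : ℂ → ℂ} {g : ℂ → ℝ} (hf : LocallyLipschitzOn s f)
    (hg : LocallyLipschitzOn t g) (hmaps : MapsTo f s t) :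
    LocallyLipschitzOn s fun z => g (f z) := by
  intro y hy
  obtain ⟨Kf, S, hS, hfS⟩ := hf hy
  obtain ⟨Kg, T, hT, hgT⟩ := hg (hmaps hy)
  have hc : ContinuousWithinAt f (S ∩ s) y :=
    (hfS.continuousOn y (mem_of_mem_nhdsWithin hy hS)).mono inter_subset_left
  have hnb : S ∩ f ⁻¹' T ∈ 𝓝[s] y := by
    refine inter_mem hS ?_
    have h1 : Tendsto f (𝓝[s] y) (𝓝[t] (f y)) := by
      refine tendsto_nhdsWithin_iff.2 ⟨?_, ?_⟩
      · rw [← nhdsWithin_inter_of_mem hS]
        exact hc.tendsto
      · filter_upwards [self_mem_nhdsWithin] with a ha using hmaps ha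
    exact h1 hT
  exact ⟨Kg * Kf, S ∩ f ⁻¹' T, hnb, (hgT.comp (hfS.mono inter_subset_left) fun a ha => ha.2)⟩

theorem locLip_push {s : Set ℂ} {x : ℂ} (r : ℝ) (hx : x ∉ s) :
    LocallyLipschitzOn s (push x r) := by
  intro y hy
  have hd : 0 < ‖y - x‖ := norm_pos_iff.2 (sub_ne_zero.2 fun hh => hx (hh ▸ hy))
  have hb : ∀ a ∈ ball y (‖y - x‖ / 2), ‖y - x‖ / 2 ≤ ‖a - x‖ ∧ ‖a - x‖ ≤ 2 * ‖y - x‖ ∧ a ≠ x := by
    intro a ha
    rw [mem_ball, dist_eq_norm] at ha
    have h1 := norm_sub_le_norm_sub_add_norm_sub y a x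
    have h2 := norm_sub_le_norm_sub_add_norm_sub a y x
    rw [norm_sub_rev y a] at h1
    refine ⟨by linarith, by linarith, fun hh => ?_⟩
    rw [hh, sub_self, norm_zero] at h1
    rw [hh] at ha
    linarith [norm_sub_rev x y]
  refine ⟨(1 + 2 * (2 * ‖y - x‖ + |r|) / (‖y - x‖ / 2)).toNNReal, ball y (‖y - x‖ / 2),
    mem_nhdsWithin_of_mem_nhds (ball_mem_nhds _ (by positivity)),
    LipschitzOnWith.of_dist_le' fun a ha b hb' => ?_⟩
  rw [dist_eq_norm, dist_eq_norm]
  obtain ⟨a1, -, a3⟩ := hb a ha
  obtain ⟨-, b2, b3⟩ := hb b hb'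
  refine (push_sub_le a3 b3 r).trans (mul_le_mul_of_nonneg_right ?_ (norm_nonneg _))
  have hmax : max ‖b - x‖ r ≤ 2 * ‖y - x‖ + |r| :=
    max_le (by linarith [abs_nonneg r]) (by linarith [le_abs_self r])
  gcongr

/-- The radial factor of the extension. -/
def scale (x : ℂ) (r : ℝ) (z : ℂ) : ℝ := Real.sqrt (min 1 (‖z - x‖ / r))

theorem locLip_scale {s : Set ℂ} {x : ℂ} {r : ℝ} (hr : 0 < r) (hx : x ∉ s) :
    LocallyLipschitzOn s (scale x r) := by
  intro y hy
  have hd : 0 < ‖y - x‖ := norm_pos_iff.2 (sub_ne_zero.2 fun hh => hx (hh ▸ hy))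
  set δ := min 1 (‖y - x‖ / 2 / r) with hδ
  have hδ0 : 0 < δ := lt_min one_pos (by positivity)
  refine ⟨((Real.sqrt δ)⁻¹ * r⁻¹).toNNReal, ball y (‖y - x‖ / 2),
    mem_nhdsWithin_of_mem_nhds (ball_mem_nhds _ (by positivity)),
    LipschitzOnWith.of_dist_le' fun a ha b hb => ?_⟩
  have low : ∀ c ∈ ball y (‖y - x‖ / 2), δ ≤ min 1 (‖c - x‖ / r) := fun c hc => by
    rw [mem_ball, dist_eq_norm] at hc
    have h1 := norm_sub_le_norm_sub_add_norm_sub y c x
    rw [norm_sub_rev y c] at h1
    exact min_le_min le_rfl (div_le_div_of_nonneg_right (by linarith) hr.le)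
  set p := min 1 (‖a - x‖ / r)
  set q := min 1 (‖b - x‖ / r)
  have hp := hδ0.trans_le (low a ha)
  have hq := hδ0.trans_le (low b hb)
  have h1 : |p - q| ≤ r⁻¹ * dist a b := by
    refine (abs_min_sub_min_le_max _ _ _ _).trans (max_le (by simp; positivity) ?_)
    rw [div_sub_div_same, abs_div, abs_of_pos hr, ← div_eq_inv_mul, dist_eq_norm]
    refine div_le_div_of_nonneg_right ?_ hr.le
    simpa using abs_norm_sub_norm_le (a - x) (b - x)
  have hsum : Real.sqrt δ ≤ Real.sqrt p + Real.sqrt q :=
    (Real.sqrt_le_sqrt (low a ha)).trans (le_add_of_nonneg_right (Real.sqrt_nonneg _))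
  have e : |Real.sqrt p - Real.sqrt q| * (Real.sqrt p + Real.sqrt q) = |p - q| := by
    rw [← abs_of_nonneg (add_nonneg (Real.sqrt_nonneg p) (Real.sqrt_nonneg q)), ← abs_mul]
    congr 1
    linear_combination Real.mul_self_sqrt hp.le - Real.mul_self_sqrt hq.le
  rw [Real.dist_eq, scale, scale, mul_assoc, ← div_eq_inv_mul,
    le_div_iff₀ (Real.sqrt_pos.2 hδ0)]
  exact ((mul_le_mul_of_nonneg_left hsum (abs_nonneg _)).trans_eq e).trans h1

theorem dirv_ne {φ t : ℝ} (ht : t ∈ Ioo 0 (2 * π)) : dirv (φ + t) ≠ dirv φ := by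
  intro hh
  have h1 := (inner_dirv φ t 0).2
  rw [hh, real_inner_self_eq_norm_sq, norm_dirv, one_pow] at h1
  have := (Real.cos_eq_one_iff_of_lt_of_lt (by linarith [ht.1, Real.pi_pos]) ht.2).1 h1.symm
  linarith [ht.1]

variable {U K : Set ℂ} {u : ℂ → ℝ} {G : ℂ → ℂ} {A M Λ : ℝ} {x : ℂ} {r φ : ℝ}

theorem free_of_cross (hr : 0 < r) (hsub : closedBall x r ⊆ U)
    (hcross : K ∩ sphere x r = {circleMap x r φ}) :
    ∀ t ∈ Ioo 0 (2 * π), circleMap x r (φ + t) ∈ U \ K := by
  intro t ht
  have hs : circleMap x r (φ + t) ∈ sphere x r := circleMap_mem_sphere x hr.le _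
  refine ⟨hsub (sphere_subset_closedBall hs), fun hK => dirv_ne (φ := φ) ht ?_⟩
  have h1 : circleMap x r (φ + t) ∈ K ∩ sphere x r := ⟨hK, hs⟩
  rw [hcross, mem_singleton_iff, circleMap_dirv, circleMap_dirv, add_right_inj] at h1
  exact (smul_right_inj hr.ne').1 h1

/-- **The cap competitor.** -/
theorem cap_bound (h : IsAlmostMin U K u G A M Λ) (hr : 0 < r) (hsub : closedBall x r ⊆ U)
    (hcross : K ∩ sphere x r = {circleMap x r φ})
    (hint : IntervalIntegrable (fun θ => ‖ext U K G (circleMap x r θ)‖ ^ 2) volume (-π) π) :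
    weakEnergy K G (closedBall x r) ≤ ENNReal.ofReal (r + r * tau U K G x r φ + Λ * r ^ 2) := by
  have hp := Real.pi_pos
  have hΛ : 0 ≤ Λ := (mul_nonneg h.A_nonneg h.M_nonneg).trans h.AM_le
  have hfree := free_of_cross hr hsub hcross
  set P := circleMap x r φ with hP
  set seg : Set ℂ := (fun t : ℝ => x + t • dirv φ) '' Icc 0 r with hseg
  have hPseg : P ∈ seg := ⟨r, ⟨hr.le, le_rfl⟩, (circleMap_dirv x r φ).symm⟩
  have hsegc : IsCompact seg := isCompact_Icc.image (by fun_prop)
  have hsegB : seg ⊆ closedBall x r := by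
    rintro _ ⟨t, ht, rfl⟩
    rw [mem_closedBall, dist_eq_norm, add_sub_cancel_left, norm_smul, norm_dirv, mul_one,
      Real.norm_of_nonneg ht.1]
    exact ht.2
  have hxseg : x ∈ seg := ⟨0, ⟨le_rfl, hr.le⟩, by simp⟩
  set L : Set ℂ := (K \ ball x r) ∪ seg with hL
  set c := u (circleMap x r (φ + π)) with hc
  set w : ℂ → ℝ := fun z => c + scale x r z * (u (push x r z) - c) with hw
  have hLU : L ⊆ U := union_subset (sdiff_subset.trans h.subset) (hsegB.trans hsub)
  have heq : U \ L = ((U \ K) ∪ ball x r) \ seg := by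
    ext z
    simp only [hL, Set.mem_sdiff, mem_union, not_or, not_and, not_not]
    constructor
    · rintro ⟨hzU, h1, h2⟩
      by_cases hzK : z ∈ K
      · exact ⟨Or.inr (h1 hzK), h2⟩
      · exact ⟨Or.inl ⟨hzU, hzK⟩, h2⟩
    · rintro ⟨hz | hz, h2⟩
      · exact ⟨hz.1, fun hK => absurd hK hz.2, h2⟩
      · exact ⟨hsub (ball_subset_closedBall hz), fun _ => hz, h2⟩
  have hLopen : IsOpen (U \ L) := heq ▸ (h.isOpen_compl.union isOpen_ball).sdiff hsegc.isClosed
  have hLK : L \ closedBall x r = K \ closedBall x r := by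
    rw [hL, union_sdiff_distrib, sdiff_eq_empty.2 hsegB, union_empty, Set.sdiff_sdiff,
      union_eq_right.2 ball_subset_closedBall]
  have hxL : x ∉ U \ L := fun hh => hh.2 (Or.inr hxseg)
  have hmaps : MapsTo (push x r) (U \ L) (U \ K) := by
    intro z hz
    have hzx : z ≠ x := fun hh => hxL (hh ▸ hz)
    have h0 : 0 < ‖z - x‖ := norm_pos_iff.2 (sub_ne_zero.2 hzx)
    rcases le_or_gt r ‖z - x‖ with hle | hlt
    · rw [push, max_eq_left ((div_le_one h0).2 hle), one_smul, add_sub_cancel]
      refine ⟨hz.1, fun hK => hz.2 (Or.inl ⟨hK, ?_⟩)⟩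
      rw [mem_ball, dist_eq_norm]
      exact not_lt.2 hle
    · have hs : push x r z ∈ sphere x r := by
        rw [mem_sphere, dist_eq_norm, push_eq hzx, norm_smul, norm_smul, norm_inv, norm_norm,
          inv_mul_cancel₀ h0.ne', mul_one, max_eq_right hlt.le, Real.norm_of_nonneg hr.le]
      refine ⟨hsub (sphere_subset_closedBall hs), fun hK => hz.2 (Or.inr ?_)⟩
      have h1 : push x r z ∈ K ∩ sphere x r := ⟨hK, hs⟩
      rw [hcross, mem_singleton_iff, ← sub_left_inj (a := x), push_eq hzx, max_eq_right hlt.le,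
        hP, circleMap_dirv, add_sub_cancel_left] at h1
      refine ⟨‖z - x‖, ⟨norm_nonneg _, hlt.le⟩, ?_⟩
      show x + ‖z - x‖ • dirv φ = z
      rw [← (smul_right_inj hr.ne').1 h1, smul_smul, mul_inv_cancel₀ h0.ne', one_smul,
        add_sub_cancel]
  have hsob : IsSobolevOn (U \ L) w (gradOf w) := by
    refine isSobolevOn_of_locallyLipschitzOn hLopen ?_
    have h1 := locLip_mul (locLip_scale hr hxL)
      (locLip_comp (locLip_push r hxL) (locLip_of_grad h.isOpen_compl h.contGrad
        (fun z hz => (h.hasGrad z hz).sub_const c)) hmaps)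
    intro y hy
    obtain ⟨C, S, hS, hCS⟩ := h1 hy
    refine ⟨C, S, hS, LipschitzOnWith.of_dist_le_mul fun a ha b hb => ?_⟩
    rw [hw, dist_add_left]
    exact hCS.dist_le_mul a ha b hb
  have hout : ∀ᵐ z ∂volume.restrict (U \ closedBall x r), w z = u z := by
    filter_upwards [ae_restrict_mem (h.isOpen.measurableSet.diff measurableSet_closedBall)] with z hz
    have hzr : r < ‖z - x‖ := by
      have := hz.2; rw [mem_closedBall, dist_eq_norm, not_le] at this; exact this
    have h1 : scale x r z = 1 := by
      rw [scale, min_eq_left ((one_le_div hr).2 hzr.le), Real.sqrt_one]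
    rw [hw]
    simp only [h1, one_mul, push, max_eq_left ((div_le_one (hr.trans hzr)).2 hzr.le), one_smul,
      add_sub_cancel]
  have hcomp := h.almostMin x r hr hsub L w (gradOf w) hLU hLopen hLK hsob hout
  -- the length of the competitor
  have hlen : μH[1] (L ∩ closedBall x r) ≤ ENNReal.ofReal r := by
    have h1 : L ∩ closedBall x r ⊆ seg := by
      rintro z ⟨hz | hz, hzB⟩
      · have : z ∈ K ∩ sphere x r := ⟨hz.1, le_antisymm hzB (not_lt.1 hz.2)⟩
        rw [hcross, mem_singleton_iff] at this
        exact this ▸ hPseg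
      · exact hz
    refine (measure_mono h1).trans ?_
    have hlip : LipschitzWith 1 fun t : ℝ => x + t • dirv φ :=
      LipschitzWith.of_dist_le_mul fun a b => by
        rw [dist_add_left, dist_eq_norm, ← sub_smul, norm_smul, norm_dirv, mul_one,
          NNReal.coe_one, one_mul, dist_eq_norm]
    refine (hlip.hausdorffMeasure_image_le zero_le_one _).trans (le_of_eq ?_)
    rw [ENNReal.rpow_one, ENNReal.coe_one, one_mul, hausdorffMeasure_real, Real.volume_Icc,
      sub_zero]
  -- the energy of the competitor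
  set F : ℂ → ℝ := fun z => (U \ K).indicator (fun z => u z - c) z ^ 2 / (4 * r) +
    r * ⟪ext U K G z, nrm x z * Complex.I⟫ ^ 2 with hF
  have hFt : ∀ t ∈ Ioo 0 (2 * π), F (circleMap x r (φ + t)) =
      VC U K G x r φ t ^ 2 / 4 + qC U K G x r φ t ^ 2 := fun t ht => by
    rw [hF]
    simp only [indicator_of_mem (hfree t ht), nrm_circleMap x hr, hc,
      trace_eq h hr hfree hint ht, qC, mul_pow, Real.sq_sqrt hr.le]
    field_simp
  obtain ⟨-, -, -, hq2⟩ := integrable_pq h hr hfree hint
  have h2π : ∀ᵐ t : ℝ, t ≠ 2 * π := by simp [ae_iff, measure_singleton]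
  have hGt : IntervalIntegrable (fun t => VC U K G x r φ t ^ 2 / 4 + qC U K G x r φ t ^ 2) volume
      0 (2 * π) := by
    have hV := continuous_VC h hr hfree hint
    rw [← uIcc_of_le (show (0 : ℝ) ≤ 2 * π by linarith)] at hV
    exact ((hV.pow 2).intervalIntegrable.div_const 4).add hq2
  have hFi : IntervalIntegrable (fun θ => F (circleMap x r θ)) volume (-π) π := by
    have h1 : IntervalIntegrable (fun t => F (circleMap x r (φ + t))) volume 0 (2 * π) := by
      refine hGt.congr_ae ?_
      rw [uIoc_of_le (show (0 : ℝ) ≤ 2 * π by linarith)]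
      filter_upwards [ae_restrict_mem measurableSet_Ioc, ae_restrict_of_ae h2π] with t ht h2
      exact (hFt t ⟨ht.1, lt_of_le_of_ne ht.2 h2⟩).symm
    have h3 := h1.comp_sub_right φ
    simp only [add_sub_cancel, zero_add] at h3
    refine (circle_periodic F x r).intervalIntegrable Real.two_pi_pos.ne' (t := φ) ?_ _ _
    rwa [add_comm φ]
  have hFtau : ∫ θ in (-π)..π, F (circleMap x r θ) = tau U K G x r φ := by
    rw [shift_integral F x r φ, tau]
    refine intervalIntegral.integral_congr_ae ?_
    filter_upwards [h2π] with t h2 ht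
    rw [uIoc_of_le (show (0 : ℝ) ≤ 2 * π by linarith)] at ht
    exact hFt t ⟨ht.1, lt_of_le_of_ne ht.2 h2⟩
  have hF0 : ∀ z, 0 ≤ F z := fun z => by positivity
  have hmeas : Measurable fun z => ‖gradOf w z‖ₑ ^ 2 := by
    have hm' : ∀ e : ℂ, Measurable fun z => fderiv ℝ w z e := fun e =>
      measurable_fderiv_apply_const ℝ w e
    have : Measurable (gradOf w) := by
      have e : gradOf w = fun z => Complex.equivRealProdCLM.symm
          (fderiv ℝ w z 1, fderiv ℝ w z Complex.I) := funext fun z => by
        simp [gradOf, Complex.ext_iff, Complex.equivRealProdCLM_symm_apply]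
      rw [e]
      exact Complex.equivRealProdCLM.symm.continuous.measurable.comp
        ((hm' 1).prodMk (hm' Complex.I))
    exact this.enorm.pow_const 2
  have hen : ∫⁻ z in closedBall x r \ L, ‖gradOf w z‖ₑ ^ 2 ≤
      ENNReal.ofReal (r * tau U K G x r φ) := by
    have h3 : (closedBall x r : Set ℂ) =ᵐ[volume] ball x r := by
      rw [← ball_union_sphere]
      exact union_ae_eq_left_of_ae_eq_empty (ae_eq_empty.2 (Measure.addHaar_sphere volume x r))
    refine (lintegral_mono_set sdiff_subset).trans ?_
    rw [setLIntegral_congr h3, lintegral_ball_polar hmeas.aemeasurable.restrict]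
    calc ∫⁻ ρ in Ioo (0 : ℝ) r, ENNReal.ofReal ρ *
          ∫⁻ θ in Ioo (-π) π, ‖gradOf w (circleMap x ρ θ)‖ₑ ^ 2
        ≤ ∫⁻ _ in Ioo (0 : ℝ) r, ENNReal.ofReal (tau U K G x r φ) := by
          refine setLIntegral_mono' measurableSet_Ioo fun ρ hρ => ?_
          have hnull : ∀ᵐ θ : ℝ ∂volume.restrict (Ioo (-π) π), circleMap x r θ ≠ P :=
            ae_restrict_of_ae (measure_eq_zero_iff_ae_notMem.1
              (((countable_singleton P).preimage_circleMap x hr.ne').measure_zero volume))
          have hpt : ∀ θ : ℝ, circleMap x r θ ≠ P →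
              ‖gradOf w (circleMap x ρ θ)‖ₑ ^ 2 ≤ ENNReal.ofReal (F (circleMap x r θ) / ρ) := by
            intro θ hθ
            set z := circleMap x ρ θ with hz
            set Q := circleMap x r θ with hQ
            have hQK : Q ∈ U \ K := by
              refine ⟨hsub (sphere_subset_closedBall (circleMap_mem_sphere x hr.le θ)), fun hK => ?_⟩
              have h1 : Q ∈ K ∩ sphere x r := ⟨hK, circleMap_mem_sphere x hr.le θ⟩
              rw [hcross, mem_singleton_iff] at h1
              exact hθ h1
            have hnorm : ∀ (t θ' : ℝ), 0 < t → ‖circleMap x t θ' - x‖ = t := fun t θ' ht => by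
              rw [circleMap_sub_center, norm_circleMap_zero, abs_of_pos ht]
            have hzx : z ≠ x := fun hh => by
              have := hnorm ρ θ hρ.1
              rw [← hz, hh, sub_self, norm_zero] at this
              linarith [hρ.1]
            have hval : ∀ (t θ' : ℝ), t ∈ Ioo 0 r → w (circleMap x t θ') =
                c + Real.sqrt (t / r) * (u (circleMap x r θ') - c) := fun t θ' ht => by
              rw [hw]
              simp only [push_circleMap ht.1 ht.2.le, scale, hnorm t θ' ht.1,
                min_eq_right ((div_le_one hr).2 ht.2.le)]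
            have hdiff : DifferentiableAt ℝ w z := by
              have he : w =ᶠ[𝓝 z] fun y => c + Real.sqrt (‖y - x‖ / r) *
                  (u (x + (r / ‖y - x‖) • (y - x)) - c) := by
                have hcn : Continuous fun y : ℂ => ‖y - x‖ := by fun_prop
                refine mem_of_superset (((isOpen_lt hcn continuous_const).inter
                  (isOpen_lt continuous_const hcn)).mem_nhds
                    (show ‖z - x‖ < r ∧ 0 < ‖z - x‖ by rw [hnorm ρ θ hρ.1]; exact ⟨hρ.2, hρ.1⟩))
                  fun y (hy : ‖y - x‖ < r ∧ 0 < ‖y - x‖) => ?_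
                simp only [hw, mem_setOf_eq, scale, push,
                  min_eq_right ((div_le_one hr).2 hy.1.le),
                  max_eq_right ((one_le_div hy.2).2 hy.1.le)]
              refine DifferentiableAt.congr_of_eventuallyEq ?_ he
              have hn : DifferentiableAt ℝ (fun y : ℂ => ‖y - x‖) z :=
                (hasFDerivAt_norm_sub hzx).differentiableAt
              have hpush : x + (r / ‖z - x‖) • (z - x) = Q := by
                rw [hnorm ρ θ hρ.1, hz, circleMap_dirv, hQ, circleMap_dirv, add_sub_cancel_left,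
                  smul_smul, div_mul_cancel₀ _ hρ.1.ne']
              have hu : DifferentiableAt ℝ u (x + (r / ‖z - x‖) • (z - x)) :=
                hpush ▸ (h.hasGrad Q hQK).differentiableAt
              have hn0 : ‖z - x‖ ≠ 0 := by rw [hnorm ρ θ hρ.1]; exact hρ.1.ne'
              have hin : DifferentiableAt ℝ (fun y : ℂ => x + (r / ‖y - x‖) • (y - x)) z := by
                simp only [div_eq_mul_inv]
                exact ((((hn.inv hn0).const_mul r)).smul (differentiableAt_id.sub_const x)).const_add x
              have hsq : DifferentiableAt ℝ (fun y : ℂ => Real.sqrt (‖y - x‖ / r)) z :=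
                DifferentiableAt.sqrt (hn.mul_const r⁻¹) (div_ne_zero hn0 hr.ne')
              exact (differentiableAt_const c).add (hsq.mul ((hu.comp z hin).sub_const c))
            have hfd := hdiff.hasFDerivAt
            -- the radial derivative
            have hrad : fderiv ℝ w z (dirv θ) =
                1 / r / (2 * Real.sqrt (ρ / r)) * (u Q - c) := by
              have h1 : HasDerivAt (fun t : ℝ => circleMap x t θ) (dirv θ) ρ := by
                simpa [circleMap, dirv] using
                  ((Complex.ofRealCLM.hasDerivAt (x := ρ)).mul_const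
                    (Complex.exp (θ * Complex.I))).const_add x
              have h2 := hfd.comp_hasDerivAt ρ h1
              have h3 : HasDerivAt (fun t : ℝ => c + Real.sqrt (t / r) * (u Q - c))
                  (1 / r / (2 * Real.sqrt (ρ / r)) * (u Q - c)) ρ :=
                ((((hasDerivAt_id ρ).div_const r).sqrt (div_pos hρ.1 hr).ne').mul_const _).const_add c
              refine h2.unique (h3.congr_of_eventuallyEq ?_)
              exact mem_of_superset (isOpen_Ioo.mem_nhds hρ) fun t ht => hval t θ ht
            -- the angular derivative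
            have hang : fderiv ℝ w z (dirv θ * Complex.I) =
                Real.sqrt (ρ / r) * (r / ρ) * ⟪G Q, dirv θ * Complex.I⟫ := by
              have h2 := hfd.comp_hasDerivAt θ (hasDerivAt_circleMap x ρ θ)
              have h3 := ((((h.hasGrad Q hQK).comp_hasDerivAt θ
                (hasDerivAt_circleMap x r θ)).sub_const c).const_mul (Real.sqrt (ρ / r))).const_add c
              have h4 := h2.unique (h3.congr_of_eventuallyEq
                (Eventually.of_forall fun θ' => hval ρ θ' hρ))
              rw [innerSL_apply_apply, circleMap_dirv 0 ρ, circleMap_dirv 0 r, zero_add, zero_add,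
                smul_mul_assoc, smul_mul_assoc, map_smul, smul_eq_mul, real_inner_smul_right] at h4
              rw [← mul_right_inj' hρ.1.ne', h4, ← mul_assoc, ← mul_assoc,
                mul_left_comm ρ (Real.sqrt (ρ / r)), mul_div_cancel₀ r hρ.1.ne']
            rw [← ofReal_norm, ← ENNReal.ofReal_pow (norm_nonneg _)]
            refine ENNReal.ofReal_le_ofReal (le_of_eq ?_)
            have e := inner_sq_split (gradOf w z) (dirv θ)
            rw [norm_dirv, one_pow, one_mul, inner_gradOf, inner_gradOf, hrad, hang] at e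
            rw [← e, hF]
            have hQK' : circleMap x r θ ∈ U \ K := hQK
            simp only [ext, hQ, indicator_of_mem hQK', nrm_circleMap x hr]
            have hs := Real.sq_sqrt (div_pos hρ.1 hr).le
            have hρ0 := hρ.1.ne'
            rw [mul_pow, mul_pow, mul_pow, div_pow (1 / r), mul_pow 2, hs]
            field_simp
            ring
          calc ENNReal.ofReal ρ * ∫⁻ θ in Ioo (-π) π, ‖gradOf w (circleMap x ρ θ)‖ₑ ^ 2
              ≤ ENNReal.ofReal ρ *
                  ∫⁻ θ in Ioo (-π) π, ENNReal.ofReal (F (circleMap x r θ) / ρ) :=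
                mul_le_mul_right (lintegral_mono_ae (hnull.mono hpt)) _
            _ = ENNReal.ofReal (tau U K G x r φ) := by
                have hi : IntegrableOn (fun θ => F (circleMap x r θ) / ρ) (Ioo (-π) π) :=
                  (intervalIntegrable_iff_integrableOn_Ioo_of_le (by linarith)).1
                    (hFi.div_const ρ)
                rw [← ofReal_integral_eq_lintegral_ofReal hi
                  (Eventually.of_forall fun θ => div_nonneg (hF0 _) hρ.1.le),
                  ← ENNReal.ofReal_mul hρ.1.le, ← integral_Ioc_eq_integral_Ioo,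
                  ← intervalIntegral.integral_of_le (by linarith), intervalIntegral.integral_div,
                  mul_div_cancel₀ _ hρ.1.ne', hFtau]
      _ = ENNReal.ofReal (r * tau U K G x r φ) := by
          rw [setLIntegral_const, Real.volume_Ioo, sub_zero, ENNReal.ofReal_mul hr.le, mul_comm]
  refine hcomp.trans ?_
  have htau : 0 ≤ tau U K G x r φ :=
    intervalIntegral.integral_nonneg (by linarith) fun t _ => by positivity
  rw [ENNReal.ofReal_add (by positivity) (by positivity),
    ENNReal.ofReal_add hr.le (mul_nonneg hr.le htau), add_comm (ENNReal.ofReal r)]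
  unfold weakEnergy
  exact add_le_add (add_le_add hen hlen) le_rfl

end Vale.Agent.P128.Regularity.Tip
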